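/-
Row 341 (S0534, S0535), Step 4 of the proof of the key inequality: the eigenvalue count.

`H` Hermitian, `W` a subspace on which the Rayleigh quotient of `H` exceeds `ξ`:
`dim W ≤ #{i : ξ < eig_i H}` (`count_le_of_subspace`), and conversely the eigenspaces supply such a
subspace (`exists_subspace_of_count`).  For `t, ξ > 0`, `D ≥ 0`, `a : d × κ`:
`#{j : t < eig_j (ξ⁻¹ a a† - D)} ≤ #{i : ξ < eig_i (a† (D + t)⁻¹ a)}` (`count_X_ge`).
-/
import Mathlib
import Crest.Agent.Lib.GAD.Entropy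

set_option autoImplicit false
set_option linter.unusedSectionVars false

namespace Crest.Agent.Lib.GAD

open Matrix Finset Module
open scoped ComplexOrder

variable {n d κ : Type*} [Fintype n] [DecidableEq n] [Fintype d] [DecidableEq d] [Fintype κ]
  [DecidableEq κ]

/-! ### The Rayleigh quotient in an eigenbasis -/

lemma dotProduct_conj (M U : Matrix n n ℂ) (w : n → ℂ) :
    star (U *ᵥ w) ⬝ᵥ (M *ᵥ (U *ᵥ w)) = star w ⬝ᵥ ((star U * M * U) *ᵥ w) := by
  rw [star_mulVec, mulVec_mulVec, dotProduct_mulVec, vecMul_vecMul, ← dotProduct_mulVec,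
    star_eq_conjTranspose, Matrix.mul_assoc]

lemma dotProduct_diagonal_re (μ : n → ℝ) (w : n → ℂ) :
    (star w ⬝ᵥ (diagonal (fun i => (μ i : ℂ)) *ᵥ w)).re = ∑ i, μ i * Complex.normSq (w i) := by
  simp only [dotProduct, mulVec_diagonal, Pi.star_apply, Complex.re_sum]
  refine Finset.sum_congr rfl fun i _ => ?_
  have : star (w i) * ((μ i : ℂ) * w i) = (μ i : ℂ) * ((Complex.normSq (w i) : ℝ) : ℂ) := by
    rw [Complex.normSq_eq_conj_mul_self]; simp; ring
  rw [this, ← Complex.ofReal_mul, Complex.ofReal_re]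

lemma dotProduct_self_re (w : n → ℂ) :
    (star w ⬝ᵥ w).re = ∑ i, Complex.normSq (w i) := by
  have := dotProduct_diagonal_re (fun _ : n => (1 : ℝ)) w
  simpa [Matrix.diagonal_one] using this

section eig

variable {H : Matrix n n ℂ} (h : H.IsHermitian)

/-- Coordinates of `u` in the eigenbasis. -/
noncomputable abbrev eigCoord (u : n → ℂ) : n → ℂ :=
  star (h.eigenvectorUnitary : Matrix n n ℂ) *ᵥ u

lemma eig_mulVec_eigCoord (u : n → ℂ) :
    (h.eigenvectorUnitary : Matrix n n ℂ) *ᵥ eigCoord h u = u := by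
  unfold eigCoord
  rw [mulVec_mulVec, (Unitary.mem_iff.1 h.eigenvectorUnitary.2).2, one_mulVec]

lemma eigCoord_mulVec (w : n → ℂ) :
    eigCoord h ((h.eigenvectorUnitary : Matrix n n ℂ) *ᵥ w) = w := by
  unfold eigCoord
  rw [mulVec_mulVec, (Unitary.mem_iff.1 h.eigenvectorUnitary.2).1, one_mulVec]

/-- The quadratic form in the eigenbasis. -/
lemma qf_eq (u : n → ℂ) :
    (star u ⬝ᵥ (H *ᵥ u)).re =
      ∑ i, h.eigenvalues i * Complex.normSq (eigCoord h u i) := by
  conv_lhs => rw [← eig_mulVec_eigCoord h u]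
  rw [dotProduct_conj, star_mul_mul_eigenvectorUnitary h, dotProduct_diagonal_re]

/-- The norm in the eigenbasis. -/
lemma norm_eq (u : n → ℂ) :
    (star u ⬝ᵥ u).re = ∑ i, Complex.normSq (eigCoord h u i) := by
  have h1 := dotProduct_conj (1 : Matrix n n ℂ) (h.eigenvectorUnitary : Matrix n n ℂ)
    (eigCoord h u)
  rw [one_mulVec, Matrix.mul_one, (Unitary.mem_iff.1 h.eigenvectorUnitary.2).1, one_mulVec,
    eig_mulVec_eigCoord h u] at h1
  rw [h1, dotProduct_self_re]

/-- (C1) The dimension of a subspace on which the Rayleigh quotient exceeds `ξ` is at most the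
number of eigenvalues above `ξ`. -/
theorem count_le_of_subspace (W : Submodule ℂ (n → ℂ)) {ξ : ℝ}
    (hW : ∀ u ∈ W, u ≠ 0 → ξ * (star u ⬝ᵥ u).re < (star u ⬝ᵥ (H *ᵥ u)).re) :
    finrank ℂ W ≤ (univ.filter (fun i => ξ < h.eigenvalues i)).card := by
  classical
  let S := {i // ξ < h.eigenvalues i}
  let f : W →ₗ[ℂ] (S → ℂ) :=
    (LinearMap.funLeft ℂ ℂ (Subtype.val : S → n)) ∘ₗ
      (Matrix.mulVecLin (star (h.eigenvectorUnitary : Matrix n n ℂ))) ∘ₗ W.subtype
  have hf : Function.Injective f := by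
    rw [← LinearMap.ker_eq_bot, LinearMap.ker_eq_bot']
    rintro ⟨u, hu⟩ hfu
    by_contra hne
    have hne' : u ≠ 0 := fun h0 => hne (Subtype.ext h0)
    have hcoord : ∀ i, ξ < h.eigenvalues i → eigCoord h u i = 0 := by
      intro i hi
      have := congrFun hfu ⟨i, hi⟩
      simpa [f, LinearMap.funLeft_apply, eigCoord] using this
    have h1 := hW u hu hne'
    rw [qf_eq h, norm_eq h, Finset.mul_sum] at h1
    have h2 : ∑ i, h.eigenvalues i * Complex.normSq (eigCoord h u i) ≤
        ∑ i, ξ * Complex.normSq (eigCoord h u i) := by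
      refine Finset.sum_le_sum fun i _ => ?_
      by_cases hi : ξ < h.eigenvalues i
      · simp [hcoord i hi]
      · exact mul_le_mul_of_nonneg_right (not_lt.1 hi) (Complex.normSq_nonneg _)
    exact absurd h1 (not_lt.2 h2)
  have h3 := LinearMap.finrank_le_finrank_of_injective hf
  rw [Module.finrank_fintype_fun_eq_card, Fintype.card_subtype] at h3
  exact h3

/-- (C2) The spectral subspace above `t`. -/
theorem exists_subspace_of_count (t : ℝ) :
    ∃ V : Submodule ℂ (n → ℂ),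
      finrank ℂ V = (univ.filter (fun i => t < h.eigenvalues i)).card ∧
      ∀ v ∈ V, v ≠ 0 → t * (star v ⬝ᵥ v).re < (star v ⬝ᵥ (H *ᵥ v)).re := by
  classical
  let S := {i // t < h.eigenvalues i}
  let e : (S → ℂ) →ₗ[ℂ] (n → ℂ) :=
    { toFun := fun c i => if hi : t < h.eigenvalues i then c ⟨i, hi⟩ else 0
      map_add' := by
        intro c c'; funext i; by_cases hi : t < h.eigenvalues i <;> simp [hi]
      map_smul' := by
        intro z c; funext i; by_cases hi : t < h.eigenvalues i <;> simp [hi] }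
  have he : Function.Injective e := by
    intro c c' hcc
    funext ⟨i, hi⟩
    have := congrFun hcc i
    simpa [e, hi] using this
  let g : (S → ℂ) →ₗ[ℂ] (n → ℂ) :=
    (Matrix.mulVecLin (h.eigenvectorUnitary : Matrix n n ℂ)) ∘ₗ e
  have hg : Function.Injective g := by
    intro c c' hcc
    apply he
    have := congrArg (eigCoord h) hcc
    simpa [g, eigCoord_mulVec] using this
  refine ⟨LinearMap.range g, ?_, ?_⟩
  · rw [LinearMap.finrank_range_of_inj hg, Module.finrank_fintype_fun_eq_card,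
      Fintype.card_subtype]
  · rintro v ⟨c, rfl⟩ hv
    have hcoord : eigCoord h (g c) = e c := by simp [g]
    rw [qf_eq h, norm_eq h, hcoord, Finset.mul_sum]
    have hc : c ≠ 0 := by rintro rfl; simp at hv
    obtain ⟨⟨i, hi⟩, hci⟩ := Function.ne_iff.1 hc
    refine Finset.sum_lt_sum (fun j _ => ?_) ⟨i, mem_univ _, ?_⟩
    · by_cases hj : t < h.eigenvalues j
      · exact mul_le_mul_of_nonneg_right hj.le (Complex.normSq_nonneg _)
      · simp [e, hj]
    · have : e c i = c ⟨i, hi⟩ := by simp [e, hi]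
      rw [this]
      exact mul_lt_mul_of_pos_right hi (Complex.normSq_pos.2 hci)

end eig

/-! ### The count -/

section count

variable (a : Matrix d κ ℂ) {D : Matrix d d ℂ}

lemma posDef_add_smul_one (hD : D.PosSemidef) {t : ℝ} (ht : 0 < t) :
    (D + (t : ℂ) • (1 : Matrix d d ℂ)).PosDef :=
  Matrix.PosDef.posSemidef_add hD (Matrix.PosDef.one.smul (by exact_mod_cast ht))

/-- `X(t) = a† (D + t)⁻¹ a`. -/
noncomputable def resolvX (a : Matrix d κ ℂ) (D : Matrix d d ℂ) (t : ℝ) : Matrix κ κ ℂ :=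
  aᴴ * (D + (t : ℂ) • (1 : Matrix d d ℂ))⁻¹ * a

lemma isHermitian_resolvX (hD : D.IsHermitian) (t : ℝ) : (resolvX a D t).IsHermitian := by
  unfold resolvX
  refine isHermitian_conjTranspose_mul_mul a (IsHermitian.inv ?_)
  refine hD.add ?_
  rw [IsHermitian, conjTranspose_smul, conjTranspose_one]
  simp

/-- Cauchy-Schwarz in the metric of `G`. -/
lemma cauchy_resolvent {G : Matrix d d ℂ} (hG : G.PosDef) (v w : d → ℂ) {c g B : ℝ}
    (hc : c = (star v ⬝ᵥ w).re) (hg : g = (star v ⬝ᵥ (G *ᵥ v)).re)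
    (hB : B = (star w ⬝ᵥ (G⁻¹ *ᵥ w)).re) (hc0 : 0 < c) (hg0 : 0 < g) :
    c ^ 2 ≤ g * B := by
  have hU : IsUnit G := hG.isUnit
  have hU' : IsUnit G.det := (Matrix.isUnit_iff_isUnit_det G).1 hU
  have hGi : G * G⁻¹ = 1 := Matrix.mul_nonsing_inv G hU'
  have hiG : G⁻¹ * G = 1 := Matrix.nonsing_inv_mul G hU'
  have hiH : (G⁻¹)ᴴ = G⁻¹ := (IsHermitian.inv hG.isHermitian)
  set s : ℝ := g / c with hs
  set z : d → ℂ := v - (s : ℂ) • (G⁻¹ *ᵥ w) with hz
  have hpos : 0 ≤ (star z ⬝ᵥ (G *ᵥ z)).re := hG.posSemidef.re_dotProduct_nonneg z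
  have hGz : G *ᵥ z = G *ᵥ v - (s : ℂ) • w := by
    rw [hz, mulVec_sub, mulVec_smul, mulVec_mulVec, hGi, one_mulVec]
  have h1 : star (G⁻¹ *ᵥ w) ⬝ᵥ (G *ᵥ v) = star w ⬝ᵥ v := by
    rw [star_mulVec, hiH, ← dotProduct_mulVec, mulVec_mulVec, hiG, one_mulVec]
  have h2 : star (G⁻¹ *ᵥ w) ⬝ᵥ w = star w ⬝ᵥ (G⁻¹ *ᵥ w) := by
    rw [star_mulVec, hiH, ← dotProduct_mulVec]
  have h3 : (star w ⬝ᵥ v).re = (star v ⬝ᵥ w).re := by
    have : star w ⬝ᵥ v = star (star v ⬝ᵥ w) := by
      rw [star_dotProduct]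
    rw [this]; simp
  have hexp : (star z ⬝ᵥ (G *ᵥ z)).re = g - 2 * s * c + s ^ 2 * B := by
    rw [hGz, hz, star_sub, star_smul, sub_dotProduct, dotProduct_sub, dotProduct_sub,
      smul_dotProduct, smul_dotProduct, dotProduct_smul, dotProduct_smul, h1, h2]
    simp only [Complex.sub_re, Complex.mul_re, smul_eq_mul, Complex.star_def, Complex.conj_ofReal,
      Complex.ofReal_re, Complex.ofReal_im, zero_mul, sub_zero, ← hg, ← hB, ← hc, h3]
    ring
  rw [hexp] at hpos
  have hc1 : c ≠ 0 := hc0.ne'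
  have hs2 : s * c = g := by rw [hs]; field_simp
  have h4 : 0 ≤ g ^ 2 * B / c ^ 2 - g := by
    have : g - 2 * s * c + s ^ 2 * B = g ^ 2 * B / c ^ 2 - g := by
      rw [hs]; field_simp; ring
    linarith
  have h5 : g * c ^ 2 ≤ g ^ 2 * B := by
    have h6 : g ≤ g ^ 2 * B / c ^ 2 := by linarith
    rwa [le_div_iff₀ (by positivity)] at h6
  have h7 : g * c ^ 2 ≤ g * (g * B) := by nlinarith
  exact le_of_mul_le_mul_left h7 hg0

/-- (C3) The count: `#{j : t < eig_j (ξ⁻¹ a a† - D)} ≤ #{i : ξ < eig_i (a† (D + t)⁻¹ a)}`. -/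
theorem count_X_ge (hD : D.PosSemidef) {t ξ : ℝ} (ht : 0 < t) (hξ : 0 < ξ)
    (hY : ((ξ⁻¹ : ℂ) • (a * aᴴ) - D).IsHermitian) (hX : (resolvX a D t).IsHermitian) :
    (univ.filter (fun j => t < hY.eigenvalues j)).card ≤
      (univ.filter (fun i => ξ < hX.eigenvalues i)).card := by
  classical
  obtain ⟨V, hVdim, hVpos⟩ := exists_subspace_of_count hY t
  set G : Matrix d d ℂ := D + (t : ℂ) • (1 : Matrix d d ℂ) with hGdef
  have hG : G.PosDef := posDef_add_smul_one hD ht
  set A : Matrix d d ℂ := a * aᴴ with hA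
  have hAH : Aᴴ = A := by rw [hA, conjTranspose_mul, conjTranspose_conjTranspose]
  -- the key inequality on `V`
  have hnorm : ∀ v : d → ℂ, star (aᴴ *ᵥ v) ⬝ᵥ (aᴴ *ᵥ v) = star v ⬝ᵥ (A *ᵥ v) := by
    intro v
    rw [star_mulVec, conjTranspose_conjTranspose, ← dotProduct_mulVec, mulVec_mulVec]
  have hkey : ∀ v ∈ V, v ≠ 0 →
      ξ * (star v ⬝ᵥ (G *ᵥ v)).re < (star v ⬝ᵥ (A *ᵥ v)).re ∧
        0 < (star v ⬝ᵥ (G *ᵥ v)).re := by
    intro v hv hv0
    have h1 := hVpos v hv hv0
    have hg0 : 0 < (star v ⬝ᵥ (G *ᵥ v)).re := hG.re_dotProduct_pos hv0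
    refine ⟨?_, hg0⟩
    have hY1 : (star v ⬝ᵥ (((ξ⁻¹ : ℂ) • A - D) *ᵥ v)).re =
        ξ⁻¹ * (star v ⬝ᵥ (A *ᵥ v)).re - (star v ⬝ᵥ (D *ᵥ v)).re := by
      rw [sub_mulVec, smul_mulVec, dotProduct_sub, dotProduct_smul, Complex.sub_re, smul_eq_mul]
      have : (ξ⁻¹ : ℂ) = ((ξ⁻¹ : ℝ) : ℂ) := by push_cast; rfl
      rw [this, Complex.re_ofReal_mul]
    have hG1 : (star v ⬝ᵥ (G *ᵥ v)).re = (star v ⬝ᵥ (D *ᵥ v)).re + t * (star v ⬝ᵥ v).re := by
      rw [hGdef, add_mulVec, smul_mulVec, one_mulVec, dotProduct_add, dotProduct_smul,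
        Complex.add_re, smul_eq_mul, Complex.re_ofReal_mul]
    rw [hY1] at h1
    rw [hG1]
    have h2 : ξ * (ξ⁻¹ * (star v ⬝ᵥ (A *ᵥ v)).re) = (star v ⬝ᵥ (A *ᵥ v)).re := by
      field_simp
    have h3 := mul_lt_mul_of_pos_left h1 hξ
    rw [mul_sub, h2] at h3
    linarith
  let f : (d → ℂ) →ₗ[ℂ] (κ → ℂ) := Matrix.mulVecLin aᴴ
  have hf0 : ∀ v ∈ V, v ≠ 0 → f v ≠ 0 := by
    intro v hv hv0 hfv
    obtain ⟨h1, h2⟩ := hkey v hv hv0
    have h3 := hnorm v
    have hfv' : aᴴ *ᵥ v = 0 := hfv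
    rw [hfv'] at h3
    simp only [star_zero, dotProduct_zero] at h3
    rw [← h3] at h1
    simp only [Complex.zero_re] at h1
    have := mul_pos hξ h2
    linarith
  let W : Submodule ℂ (κ → ℂ) := V.map f
  -- the Rayleigh quotient on `W`
  have hWpos : ∀ u ∈ W, u ≠ 0 →
      ξ * (star u ⬝ᵥ u).re < (star u ⬝ᵥ (resolvX a D t *ᵥ u)).re := by
    rintro u ⟨v, hv, rfl⟩ hu
    have hv0 : v ≠ 0 := by
      rintro rfl
      exact hu (map_zero f)
    obtain ⟨h1, h2⟩ := hkey v hv hv0
    have hfv : f v = aᴴ *ᵥ v := rfl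
    rw [hfv, hnorm]
    have hXv : star (aᴴ *ᵥ v) ⬝ᵥ (resolvX a D t *ᵥ (aᴴ *ᵥ v)) =
        star (A *ᵥ v) ⬝ᵥ (G⁻¹ *ᵥ (A *ᵥ v)) := by
      have e1 : resolvX a D t *ᵥ (aᴴ *ᵥ v) = aᴴ *ᵥ (G⁻¹ *ᵥ (A *ᵥ v)) := by
        unfold resolvX
        rw [hA, ← mulVec_mulVec, ← mulVec_mulVec, ← mulVec_mulVec]
      rw [e1, star_mulVec, conjTranspose_conjTranspose, ← dotProduct_mulVec, mulVec_mulVec,
        star_mulVec, hAH]
      exact dotProduct_mulVec _ _ _
    rw [hXv]
    have hc0 : 0 < (star v ⬝ᵥ (A *ᵥ v)).re := lt_trans (mul_pos hξ h2) h1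
    have hCS := cauchy_resolvent hG v (A *ᵥ v) rfl rfl rfl hc0 h2
    set c := (star v ⬝ᵥ (A *ᵥ v)).re
    set g := (star v ⬝ᵥ (G *ᵥ v)).re
    set B := (star (A *ᵥ v) ⬝ᵥ (G⁻¹ *ᵥ (A *ᵥ v))).re
    by_contra hcon
    have hcon' : B ≤ ξ * c := not_lt.1 hcon
    have h5 : g * B ≤ g * (ξ * c) := mul_le_mul_of_nonneg_left hcon' h2.le
    have h6 : g * (ξ * c) < c * c := by
      have := mul_lt_mul_of_pos_right h1 hc0
      nlinarith
    nlinarith
  have hcount := count_le_of_subspace hX W hWpos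
  -- the dimension
  have hdim : finrank ℂ V ≤ finrank ℂ W := by
    let f' : V →ₗ[ℂ] W := f.restrict (fun v hv => Submodule.mem_map_of_mem hv)
    refine LinearMap.finrank_le_finrank_of_injective (f := f') ?_
    rw [← LinearMap.ker_eq_bot, LinearMap.ker_eq_bot']
    rintro ⟨v, hv⟩ hfv
    by_contra hne
    have hv0 : v ≠ 0 := fun h0 => hne (Subtype.ext h0)
    exact hf0 v hv hv0 (congrArg Subtype.val hfv)
  calc _ = finrank ℂ V := hVdim.symm
    _ ≤ finrank ℂ W := hdim
    _ ≤ _ := hcount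

end count

/-! ### Step functions -/

section step

variable {ι : Type*} [Fintype ι]

/-- `#{j : t < η j}`. -/
noncomputable def cnt (η : ι → ℝ) (t : ℝ) : ℝ := ((univ.filter (fun j => t < η j)).card : ℝ)

lemma cnt_eq_sum (η : ι → ℝ) (t : ℝ) : cnt η t = ∑ j, (if t < η j then (1 : ℝ) else 0) := by
  unfold cnt
  rw [Finset.card_filter]
  push_cast
  rfl

lemma antitone_ite (η : ℝ) : Antitone (fun t : ℝ => if t < η then (1 : ℝ) else 0) := by
  intro x y hxy
  by_cases hy : y < η
  · have hx : x < η := lt_of_le_of_lt hxy hy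
    simp [hx, hy]
  · simp only [hy, if_false]
    split_ifs <;> norm_num

lemma antitone_cnt (η : ι → ℝ) : Antitone (cnt η) := by
  intro x y hxy
  rw [cnt_eq_sum, cnt_eq_sum]
  exact Finset.sum_le_sum fun j _ => antitone_ite (η j) hxy

lemma integral_ite_lt (η : ℝ) {T : ℝ} (hT : 0 ≤ T) :
    ∫ t in (0 : ℝ)..T, (if t < η then (1 : ℝ) else 0) = min (max η 0) T := by
  rw [intervalIntegral.integral_of_le hT]
  have hsub : (fun t : ℝ => if t < η then (1 : ℝ) else 0) = Set.indicator (Set.Iio η) 1 := by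
    funext t
    by_cases ht : t < η <;> simp [ht]
  rw [hsub, MeasureTheory.setIntegral_indicator measurableSet_Iio]
  simp only [Pi.one_apply, MeasureTheory.integral_const, MeasurableSet.univ,
    MeasureTheory.measureReal_restrict_apply, Set.univ_inter, smul_eq_mul, mul_one]
  have hvol : (Set.Ioc 0 T ∩ Set.Iio η : Set ℝ) =ᵐ[MeasureTheory.volume]
      (Set.Ioc 0 (min η T) : Set ℝ) := by
    have : Set.Ioc 0 (min η T) \ (Set.Ioc 0 T ∩ Set.Iio η) ⊆ {η} := by
      intro x hx
      obtain ⟨⟨h1, h2⟩, h3⟩ := hx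
      have h4 : x ≤ η := le_trans h2 (min_le_left _ _)
      have h5 : x ≤ T := le_trans h2 (min_le_right _ _)
      by_contra hne
      exact h3 ⟨⟨h1, h5⟩, lt_of_le_of_ne h4 hne⟩
    have hsub2 : Set.Ioc 0 T ∩ Set.Iio η ⊆ Set.Ioc 0 (min η T) := by
      rintro x ⟨⟨h1, h2⟩, h3⟩
      exact ⟨h1, le_min (le_of_lt h3) h2⟩
    refine MeasureTheory.ae_eq_set.2 ⟨?_, ?_⟩
    · exact MeasureTheory.measure_mono_null (Set.sdiff_eq_empty.2 hsub2).subset (by simp)
    · exact MeasureTheory.measure_mono_null this (by simp)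
  have h6 : MeasureTheory.volume.real (Set.Ioc 0 T ∩ Set.Iio η) =
      MeasureTheory.volume.real (Set.Ioc 0 (min η T)) :=
    MeasureTheory.measureReal_congr hvol
  rw [h6, Real.volume_real_Ioc]
  rcases le_total η 0 with h | h
  · rw [max_eq_right h, min_eq_left hT, max_eq_right]
    linarith [min_le_left η T]
  · rw [max_eq_left h, max_eq_left]
    · simp
    · exact sub_nonneg.2 (le_min h hT)

theorem integral_cnt (η : ι → ℝ) {T : ℝ} (hT : 0 ≤ T) :
    ∫ t in (0 : ℝ)..T, cnt η t = ∑ j, min (max (η j) 0) T := by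
  simp_rw [cnt_eq_sum]
  rw [intervalIntegral.integral_finsetSum]
  · exact Finset.sum_congr rfl fun j _ => integral_ite_lt (η j) hT
  · intro j _
    exact (antitone_ite (η j)).intervalIntegrable

end step

/-! ### Loewner comparison of `Tr (· - T)₊` -/

section loewner

/-- `#(Y) ≤ Z`: `Σ_j min(η_j⁺, T) ≥ Tr Y - Σ_i (ζ_i - T)₊`. -/
theorem sum_min_ge_of_le {Y Z : Matrix n n ℂ} (hY : Y.IsHermitian) (hZ : Z.IsHermitian)
    (hYZ : (Z - Y).PosSemidef) {T : ℝ} :
    Y.trace.re - ∑ i, max (hZ.eigenvalues i - T) 0 ≤ ∑ j, min (max (hY.eigenvalues j) 0) T := by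
  classical
  set UY : Matrix n n ℂ := (hY.eigenvectorUnitary : Matrix n n ℂ) with hUY
  set UZ : Matrix n n ℂ := (hZ.eigenvectorUnitary : Matrix n n ℂ) with hUZ
  have hUY1 : star UY * UY = 1 := (Unitary.mem_iff.1 hY.eigenvectorUnitary.2).1
  have hUZ1 : star UZ * UZ = 1 := (Unitary.mem_iff.1 hZ.eigenvectorUnitary.2).1
  have hUZ2 : UZ * star UZ = 1 := (Unitary.mem_iff.1 hZ.eigenvectorUnitary.2).2
  have hUY2 : UY * star UY = 1 := (Unitary.mem_iff.1 hY.eigenvectorUnitary.2).2
  -- the columns of `UY`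
  let ψ : n → n → ℂ := fun j => UY *ᵥ Pi.single j 1
  let p : n → n → ℝ := fun j i => Complex.normSq (eigCoord hZ (ψ j) i)
  have hp0 : ∀ j i, 0 ≤ p j i := fun j i => Complex.normSq_nonneg _
  have hcoordY : ∀ j, eigCoord hY (ψ j) = Pi.single j 1 := fun j => eigCoord_mulVec hY _
  have hqY : ∀ j, (star (ψ j) ⬝ᵥ (Y *ᵥ ψ j)).re = hY.eigenvalues j := by
    intro j
    rw [qf_eq hY, hcoordY, Finset.sum_eq_single j]
    · simp
    · intro i _ hij; simp [Pi.single_eq_of_ne hij]
    · simp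
  have hnormY : ∀ j, (star (ψ j) ⬝ᵥ ψ j).re = 1 := by
    intro j
    rw [norm_eq hY, hcoordY, Finset.sum_eq_single j]
    · simp
    · intro i _ hij; simp [Pi.single_eq_of_ne hij]
    · simp
  have hrow : ∀ j, ∑ i, p j i = 1 := by
    intro j
    have := norm_eq hZ (ψ j)
    rw [hnormY] at this
    exact this.symm
  have hcol : ∀ i, ∑ j, p j i = 1 := by
    intro i
    set P : Matrix n n ℂ := star UZ * UY with hP
    have hPP : P * star P = 1 := by
      rw [hP, star_mul, star_star, Matrix.mul_assoc, ← Matrix.mul_assoc UY, hUY2, Matrix.one_mul,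
        hUZ1]
    have hent : ∀ j, eigCoord hZ (ψ j) i = P i j := by
      intro j
      show (star UZ *ᵥ (UY *ᵥ Pi.single j 1)) i = _
      rw [mulVec_mulVec, mulVec_single_one]
      rfl
    have h1 := congrFun (congrFun hPP i) i
    rw [Matrix.mul_apply, Matrix.one_apply_eq] at h1
    have h2 : ∑ j, p j i = (∑ j, P i j * star P j i).re := by
      rw [Complex.re_sum]
      refine Finset.sum_congr rfl fun j _ => ?_
      have : star P j i = star (P i j) := by simp
      rw [this]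
      simp only [p, hent]
      rw [Complex.star_def, Complex.mul_conj, Complex.ofReal_re]
    rw [h2]
    have h3 : (∑ j, P i j * star P j i) = 1 := h1
    rw [h3]; simp
  -- the comparison for each eigenvector
  have hcomp : ∀ j, max (hY.eigenvalues j - T) 0 ≤ ∑ i, p j i * max (hZ.eigenvalues i - T) 0 := by
    intro j
    refine max_le ?_ (Finset.sum_nonneg fun i _ => mul_nonneg (hp0 j i) (le_max_right _ _))
    have h1 : hY.eigenvalues j ≤ (star (ψ j) ⬝ᵥ (Z *ᵥ ψ j)).re := by
      have h2 := hYZ.re_dotProduct_nonneg (ψ j)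
      rw [sub_mulVec, dotProduct_sub] at h2
      simp only [RCLike.re_to_complex, Complex.sub_re] at h2
      rw [hqY] at h2
      linarith
    have h3 : (star (ψ j) ⬝ᵥ (Z *ᵥ ψ j)).re = ∑ i, hZ.eigenvalues i * p j i := qf_eq hZ (ψ j)
    have h4 : ∑ i, p j i * (hZ.eigenvalues i - T) = (star (ψ j) ⬝ᵥ (Z *ᵥ ψ j)).re - T := by
      have : ∑ i, p j i * (hZ.eigenvalues i - T) =
          ∑ i, hZ.eigenvalues i * p j i - T * ∑ i, p j i := by
        rw [Finset.mul_sum, ← Finset.sum_sub_distrib]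
        exact Finset.sum_congr rfl fun i _ => by ring
      rw [this, hrow, h3]; ring
    have h5 : ∑ i, p j i * (hZ.eigenvalues i - T) ≤ ∑ i, p j i * max (hZ.eigenvalues i - T) 0 :=
      Finset.sum_le_sum fun i _ => mul_le_mul_of_nonneg_left (le_max_left _ _) (hp0 j i)
    linarith
  have hsum : ∑ j, max (hY.eigenvalues j - T) 0 ≤ ∑ i, max (hZ.eigenvalues i - T) 0 := by
    calc ∑ j, max (hY.eigenvalues j - T) 0
        ≤ ∑ j, ∑ i, p j i * max (hZ.eigenvalues i - T) 0 := Finset.sum_le_sum fun j _ => hcomp j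
      _ = ∑ i, (∑ j, p j i) * max (hZ.eigenvalues i - T) 0 := by
          rw [Finset.sum_comm]
          exact Finset.sum_congr rfl fun i _ => (Finset.sum_mul _ _ _).symm
      _ = _ := by simp [hcol]
  have htr : Y.trace.re = ∑ j, hY.eigenvalues j := by
    have := hY.trace_eq_sum_eigenvalues
    rw [this, Complex.re_sum]
    simp
  rw [htr]
  have hterm : ∀ j, hY.eigenvalues j - max (hY.eigenvalues j - T) 0 ≤
      min (max (hY.eigenvalues j) 0) T := by
    intro j
    set x := hY.eigenvalues j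
    refine le_min ?_ ?_
    · have := le_max_left x 0
      have := le_max_right (x - T) 0
      linarith
    · have := le_max_left (x - T) 0
      linarith
  have := Finset.sum_le_sum fun j (_ : j ∈ univ) => hterm j
  rw [Finset.sum_sub_distrib] at this
  linarith

/-- Functions of the spectrum of a real multiple. -/
theorem sum_eigen_smul {A : Matrix n n ℂ} (hA : A.IsHermitian) (c : ℝ)
    (hZ : ((c : ℂ) • A).IsHermitian) (f : ℝ → ℝ) :
    ∑ i, f (hZ.eigenvalues i) = ∑ i, f (c * hA.eigenvalues i) := by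
  refine sum_eigen_eq_of_spectral hZ hA.eigenvectorUnitary.2 ?_ f
  conv_lhs => rw [spectral_eq hA]
  have : diagonal (fun i => ((c * hA.eigenvalues i : ℝ) : ℂ)) =
      (c : ℂ) • diagonal (fun i => (hA.eigenvalues i : ℂ)) := by
    ext i j
    by_cases hij : i = j
    · subst hij; simp
    · simp [hij]
  rw [this]
  simp [Matrix.mul_assoc]

end loewner

/-! ### The telescoping grid -/

section grid

variable {W : ℝ → ℝ} {h : ℝ}

/-- The drop of `W` over the grid cell `k` of the grid `(k+1) h`. -/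
noncomputable def gridC (W : ℝ → ℝ) (h : ℝ) (k : ℕ) : ℝ :=
  W (((k : ℝ) + 1) * h) - W (((k + 1 : ℕ) + 1) * h)

lemma gridC_nonneg (hanti : AntitoneOn W (Set.Ioi 0)) (hh : 0 < h) (k : ℕ) : 0 ≤ gridC W h k := by
  unfold gridC
  have h1 : (0 : ℝ) < ((k : ℝ) + 1) * h := by positivity
  have h2 : (0 : ℝ) < ((k + 1 : ℕ) + 1) * h := by positivity
  have h3 : ((k : ℝ) + 1) * h ≤ ((k + 1 : ℕ) + 1) * h := by
    push_cast
    nlinarith
  linarith [hanti (Set.mem_Ioi.2 h1) (Set.mem_Ioi.2 h2) h3]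

lemma tele_le (hW0 : ∀ r, 0 < r → 0 ≤ W r) (hh : 0 < h)
    (P : ℕ → Prop) [DecidablePred P] (hP : ∀ k, P k → P (k + 1)) {B : ℝ}
    (hB : ∀ k, P k → W (((k : ℝ) + 1) * h) ≤ B) (hB0 : 0 ≤ B) (n : ℕ) :
    ∑ k ∈ range n, (if P k then gridC W h k else 0) ≤ B := by
  have hzero : ∀ m, ¬ P m → ∑ k ∈ range m, (if P k then gridC W h k else 0) = 0 := by
    intro m hm
    refine Finset.sum_eq_zero fun k hk => ?_
    have hkm : k ≤ m := (Finset.mem_range.1 hk).le
    have : ¬ P k := by
      intro hPk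
      exact hm (Nat.le_induction hPk (fun l _ hl => hP l hl) m hkm)
    simp [this]
  have key : ∀ n, ∑ k ∈ range n, (if P k then gridC W h k else 0) +
      (if P n then W (((n : ℝ) + 1) * h) else 0) ≤ B := by
    intro n
    induction n with
    | zero =>
      simp only [range_zero, Finset.sum_empty, zero_add]
      split_ifs with h0
      · simpa using hB 0 h0
      · exact hB0
    | succ n ih =>
      rw [Finset.sum_range_succ]
      by_cases hn : P n
      · have hn1 := hP n hn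
        simp only [hn, hn1, if_true] at ih ⊢
        have : gridC W h n + W (((n + 1 : ℕ) + 1) * h) = W (((n : ℝ) + 1) * h) := by
          unfold gridC; ring
        linarith
      · rw [hzero n hn]
        simp only [hn, if_false, zero_add, add_zero]
        split_ifs with hn1
        · exact hB _ hn1
        · exact hB0
  have h2 : 0 ≤ (if P n then W (((n : ℝ) + 1) * h) else 0) := by
    split_ifs
    · exact hW0 _ (by positivity)
    · exact le_rfl
  linarith [key n]

lemma tele_ge (hanti : AntitoneOn W (Set.Ioi 0)) (hh : 0 < h) {ρ : ℝ} (hρ : 0 ≤ ρ) (n : ℕ) :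
    W (ρ + h) - W (((n : ℝ) + 1) * h) ≤
      ∑ k ∈ range n, (if ρ < ((k : ℝ) + 1) * h then gridC W h k else 0) := by
  induction n with
  | zero =>
    simp only [range_zero, Finset.sum_empty, Nat.cast_zero, zero_add, one_mul]
    have := hanti (Set.mem_Ioi.2 hh) (Set.mem_Ioi.2 (by linarith : 0 < ρ + h))
      (by linarith : h ≤ ρ + h)
    linarith
  | succ n ih =>
    rw [Finset.sum_range_succ]
    by_cases hn : ρ < ((n : ℝ) + 1) * h
    · simp only [hn, if_true]
      have : gridC W h n = W (((n : ℝ) + 1) * h) - W (((n + 1 : ℕ) + 1) * h) := rfl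
      rw [this]
      linarith
    · simp only [hn, if_false, add_zero]
      have hn' : ((n : ℝ) + 1) * h ≤ ρ := not_lt.1 hn
      have h1 : (0 : ℝ) < ((n + 1 : ℕ) + 1) * h := by positivity
      have h2 : ((n + 1 : ℕ) + 1 : ℝ) * h ≤ ρ + h := by
        push_cast
        nlinarith
      have h3 := hanti (Set.mem_Ioi.2 h1) (Set.mem_Ioi.2 (by linarith : 0 < ρ + h)) h2
      have h4 : 0 ≤ ∑ k ∈ range n, (if ρ < ((k : ℝ) + 1) * h then gridC W h k else 0) :=
        Finset.sum_nonneg fun k _ => by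
          split_ifs
          · exact gridC_nonneg hanti hh k
          · exact le_rfl
      linarith

lemma antitoneOn_shift (hanti : AntitoneOn W (Set.Ioi 0)) (hh : 0 < h) {R : ℝ} (hR : 0 ≤ R) :
    AntitoneOn (fun ρ => W (ρ + h)) (Set.uIcc 0 R) := by
  rw [Set.uIcc_of_le hR]
  intro x hx y hy hxy
  exact hanti (Set.mem_Ioi.2 (by linarith [hx.1])) (Set.mem_Ioi.2 (by linarith [hy.1]))
    (by linarith)

lemma sum_c_min_ge (hanti : AntitoneOn W (Set.Ioi 0)) (hh : 0 < h) {R : ℝ} (hR : 0 ≤ R) (n : ℕ) :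
    (∫ ρ in (0 : ℝ)..R, W (ρ + h)) - R * W (((n : ℝ) + 1) * h) ≤
      ∑ k ∈ range n, gridC W h k * min (((k : ℝ) + 1) * h) R := by
  have h1 : ∀ k : ℕ, min (((k : ℝ) + 1) * h) R =
      ∫ ρ in (0 : ℝ)..R, (if ρ < ((k : ℝ) + 1) * h then (1 : ℝ) else 0) := by
    intro k
    rw [integral_ite_lt _ hR, max_eq_left (by positivity)]
  have h2 : ∑ k ∈ range n, gridC W h k * min (((k : ℝ) + 1) * h) R =
      ∫ ρ in (0 : ℝ)..R, ∑ k ∈ range n,
        (if ρ < ((k : ℝ) + 1) * h then gridC W h k else 0) := by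
    rw [intervalIntegral.integral_finsetSum]
    · refine Finset.sum_congr rfl fun k _ => ?_
      rw [h1, ← intervalIntegral.integral_const_mul]
      refine intervalIntegral.integral_congr fun ρ _ => ?_
      by_cases hρ : ρ < ((k : ℝ) + 1) * h <;> simp [hρ]
    · intro k _
      have : (fun ρ : ℝ => if ρ < ((k : ℝ) + 1) * h then gridC W h k else 0) =
          fun ρ => gridC W h k * (if ρ < ((k : ℝ) + 1) * h then (1 : ℝ) else 0) := by
        funext ρ
        by_cases hρ : ρ < ((k : ℝ) + 1) * h <;> simp [hρ]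
      rw [this]
      exact (antitone_ite _).intervalIntegrable.const_mul _
  rw [h2]
  have hint1 : IntervalIntegrable (fun ρ => W (ρ + h)) MeasureTheory.volume 0 R :=
    (antitoneOn_shift hanti hh hR).intervalIntegrable
  have hint2 : IntervalIntegrable (fun ρ => W (ρ + h) - W (((n : ℝ) + 1) * h))
      MeasureTheory.volume 0 R := hint1.sub intervalIntegrable_const
  have hint3 : IntervalIntegrable (fun ρ : ℝ => ∑ k ∈ range n,
      (if ρ < ((k : ℝ) + 1) * h then gridC W h k else 0)) MeasureTheory.volume 0 R := by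
    have hA : Antitone (fun ρ : ℝ => ∑ k ∈ range n,
        (if ρ < ((k : ℝ) + 1) * h then gridC W h k else 0)) := by
      intro x y hxy
      refine Finset.sum_le_sum fun k _ => ?_
      have hc := gridC_nonneg hanti hh k
      by_cases hy : y < ((k : ℝ) + 1) * h
      · have hx : x < ((k : ℝ) + 1) * h := lt_of_le_of_lt hxy hy
        simp [hx, hy]
      · simp only [hy, if_false]
        split_ifs
        · exact hc
        · exact le_rfl
    exact hA.intervalIntegrable
  have hmono := intervalIntegral.integral_mono_on hR hint2 hint3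
    (fun ρ hρ => tele_ge hanti hh hρ.1 n)
  rw [intervalIntegral.integral_sub hint1 intervalIntegrable_const,
    intervalIntegral.integral_const, sub_zero, smul_eq_mul] at hmono
  exact hmono

lemma sum_c_min_smul_ge (hanti : AntitoneOn W (Set.Ioi 0)) (hh : 0 < h) {s T : ℝ} (hs : 0 ≤ s)
    (hT : 0 ≤ T) (hW0 : ∀ r, 0 < r → 0 ≤ W r) (n : ℕ) :
    (s * ∫ ρ in (0 : ℝ)..(T / s), W (ρ + h)) - T * W (((n : ℝ) + 1) * h) ≤
      ∑ k ∈ range n, gridC W h k * min (((k : ℝ) + 1) * h * s) T := by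
  rcases hs.eq_or_lt with rfl | hs
  · simp only [zero_mul, mul_zero, min_eq_left hT]
    have : 0 ≤ W (((n : ℝ) + 1) * h) := hW0 _ (by positivity)
    have := mul_nonneg hT this
    simp
    linarith
  · have h1 := sum_c_min_ge hanti hh (div_nonneg hT hs.le) n
    have h2 := mul_le_mul_of_nonneg_left h1 hs.le
    rw [mul_sub, Finset.mul_sum] at h2
    have h3 : s * (T / s * W (((n : ℝ) + 1) * h)) = T * W (((n : ℝ) + 1) * h) := by
      field_simp
    rw [h3] at h2
    refine h2.trans (le_of_eq (Finset.sum_congr rfl fun k _ => ?_))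
    have h4 : min (((k : ℝ) + 1) * h * s) T = s * min (((k : ℝ) + 1) * h) (T / s) := by
      rw [mul_min_of_nonneg _ _ hs.le, mul_comm s, mul_div_cancel₀ T hs.ne']
    rw [h4]; ring

/-- The shift limit. -/
lemma tendsto_integral_shift (hint : ∀ R, 0 < R → IntervalIntegrable W MeasureTheory.volume 0 R)
    {R : ℝ} (hR : 0 < R) :
    Filter.Tendsto (fun h => ∫ ρ in (0 : ℝ)..R, W (ρ + h)) (nhdsWithin 0 (Set.Ioi 0))
      (nhds (∫ ρ in (0 : ℝ)..R, W ρ)) := by
  have hint2 : IntervalIntegrable W MeasureTheory.volume 0 (R + 1) := hint _ (by linarith)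
  have hcont : ContinuousOn (fun x => ∫ ρ in (0 : ℝ)..x, W ρ) (Set.Icc 0 (R + 1)) := by
    have := intervalIntegral.continuousOn_primitive_interval (a := 0) (b := R + 1) (f := W)
      (by
        have h3 := (intervalIntegrable_iff_integrableOn_Icc_of_le (a := 0) (b := R + 1)
          (μ := MeasureTheory.volume) (by linarith)).1 hint2
        rwa [Set.uIcc_of_le (by linarith)])
    rwa [Set.uIcc_of_le (by linarith : (0 : ℝ) ≤ R + 1)] at this
  have hat0 : Filter.Tendsto (fun x => ∫ ρ in (0 : ℝ)..x, W ρ) (nhdsWithin 0 (Set.Ioi 0))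
      (nhds (∫ ρ in (0 : ℝ)..0, W ρ)) := by
    have h1 := hcont.continuousWithinAt (x := 0) ⟨le_rfl, by linarith⟩
    refine h1.tendsto.mono_left (nhdsWithin_le_of_mem ?_)
    filter_upwards [Ico_mem_nhdsGT (by linarith : (0 : ℝ) < R + 1)] with x hx
    exact ⟨hx.1, hx.2.le⟩
  have hatR : Filter.Tendsto (fun h => ∫ ρ in (0 : ℝ)..(R + h), W ρ) (nhdsWithin 0 (Set.Ioi 0))
      (nhds (∫ ρ in (0 : ℝ)..R, W ρ)) := by
    have h1 : ContinuousWithinAt (fun x => ∫ ρ in (0 : ℝ)..x, W ρ) (Set.Icc 0 (R + 1)) R :=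
      hcont.continuousWithinAt ⟨hR.le, by linarith⟩
    have h2 : Filter.Tendsto (fun h => R + h) (nhdsWithin 0 (Set.Ioi 0))
        (nhdsWithin R (Set.Icc 0 (R + 1))) := by
      refine tendsto_nhdsWithin_iff.2 ⟨?_, ?_⟩
      · have : Filter.Tendsto (fun h => R + h) (nhds 0) (nhds (R + 0)) :=
          tendsto_const_nhds.add Filter.tendsto_id
        rw [add_zero] at this
        exact this.mono_left nhdsWithin_le_nhds
      · filter_upwards [Ioo_mem_nhdsGT (by norm_num : (0 : ℝ) < 1)] with x hx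
        exact ⟨by linarith [hx.1], by linarith [hx.2]⟩
    exact h1.tendsto.comp h2
  have hsub := hatR.sub hat0
  rw [intervalIntegral.integral_same, sub_zero] at hsub
  refine hsub.congr' ?_
  filter_upwards [Ioo_mem_nhdsGT (by norm_num : (0 : ℝ) < 1)] with x hx
  have hi1 : IntervalIntegrable W MeasureTheory.volume 0 x := hint _ hx.1
  have hi2 : IntervalIntegrable W MeasureTheory.volume 0 (R + x) := hint _ (by linarith [hx.1])
  rw [intervalIntegral.integral_comp_add_right (fun y => W y) x, zero_add]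
  rw [intervalIntegral.integral_interval_sub_left hi2 hi1]

end grid

/-! ### One side of the key inequality -/

section main

variable (a : Matrix d κ ℂ) {D : Matrix d d ℂ}

lemma isHermitian_Y (hD : D.IsHermitian) (ξ : ℝ) : ((ξ⁻¹ : ℂ) • (a * aᴴ) - D).IsHermitian := by
  refine IsHermitian.sub ?_ hD
  rw [IsHermitian, conjTranspose_smul, conjTranspose_mul, conjTranspose_conjTranspose]
  simp

lemma term_ineq {r e T s : ℝ} (hr : 0 ≤ r) (he : 0 ≤ e) (hs : 0 ≤ s) (hs1 : s ≤ 1) :
    min (r * s) T - e * s * (if T < r + e then 1 else 0) ≤ r * s - max ((r + e) * s - T) 0 := by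
  have hes : 0 ≤ e * s := mul_nonneg he hs
  by_cases h : T < r + e
  · simp only [h, if_true, mul_one]
    have h1 := min_le_left (r * s) T
    have h2 := min_le_right (r * s) T
    rw [le_sub_iff_add_le, ← le_sub_iff_add_le']
    refine max_le ?_ ?_
    · nlinarith
    · linarith
  · have h3 : (r + e) * s ≤ T := by
      have : (r + e) * s ≤ (r + e) * 1 := mul_le_mul_of_nonneg_left hs1 (add_nonneg hr he)
      linarith [not_lt.1 h]
    rw [max_eq_right (by linarith)]
    simp only [h, if_false, mul_zero, sub_zero]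
    exact min_le_left _ _

/-- The lower bound of `Σ_j min(η_j⁺, T)` at one grid point. -/
theorem m_ge {q τ e T r : ℝ} (hq : 0 < q)
    (htrA : (a * aᴴ).trace.re = q) (htrD : D.trace.re = τ)
    (hDA : (D - (((τ - e) / q : ℝ) : ℂ) • (a * aᴴ)).PosSemidef) (he : 0 ≤ e) (hr : 0 < r)
    (hA : (a * aᴴ).IsHermitian)
    (hY : (((q / (τ + r) : ℝ) : ℂ)⁻¹ • (a * aᴴ) - D).IsHermitian) :
    ∑ i, min (r * (hA.eigenvalues i / q)) T - e * (if T < r + e then 1 else 0) ≤
      ∑ j, min (max (hY.eigenvalues j) 0) T := by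
  set A := a * aᴴ with hAdef
  have hAp : A.PosSemidef := posSemidef_self_mul_conjTranspose a
  have hq0 : q ≠ 0 := hq.ne'
  set c : ℝ := (r + e) / q with hc
  have hinv : ((q / (τ + r) : ℝ) : ℂ)⁻¹ = (((τ + r) / q : ℝ) : ℂ) := by
    rw [← Complex.ofReal_inv, inv_div]
  have hZ : ((c : ℂ) • A).IsHermitian := by
    rw [IsHermitian, conjTranspose_smul, hA.eq]
    simp
  have hZY : ((c : ℂ) • A - (((q / (τ + r) : ℝ) : ℂ)⁻¹ • A - D)).PosSemidef := by
    have : (c : ℂ) • A - (((q / (τ + r) : ℝ) : ℂ)⁻¹ • A - D) =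
        D - (((τ - e) / q : ℝ) : ℂ) • A := by
      rw [hinv, hc]
      have h1 : ((r + e) / q : ℝ) = ((τ + r) / q : ℝ) - ((τ - e) / q : ℝ) := by
        field_simp; ring
      rw [h1]
      push_cast
      rw [sub_smul]
      abel
    rw [this]
    exact hDA
  have hmain := sum_min_ge_of_le hY hZ hZY (T := T)
  have hsm := sum_eigen_smul hA c hZ (fun x => max (x - T) 0)
  rw [hsm] at hmain
  have htrY : (((q / (τ + r) : ℝ) : ℂ)⁻¹ • A - D).trace.re = r := by
    rw [hinv, trace_sub, trace_smul, Complex.sub_re, smul_eq_mul, Complex.re_ofReal_mul, htrA, htrD]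
    field_simp
    ring
  rw [htrY] at hmain
  have hsum : ∑ i, hA.eigenvalues i / q = 1 := by
    have h1 := hA.trace_eq_sum_eigenvalues
    have h2 : ∑ i, hA.eigenvalues i = q := by
      have h3 : A.trace.re = ∑ i, hA.eigenvalues i := by
        rw [h1, Complex.re_sum]; simp
      rw [← h3, htrA]
    rw [← Finset.sum_div, h2, div_self hq0]
  have hs0 : ∀ i, 0 ≤ hA.eigenvalues i / q := fun i =>
    div_nonneg (by simpa using hAp.eigenvalues_nonneg i) hq.le
  have hs1 : ∀ i, hA.eigenvalues i / q ≤ 1 := fun i => by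
    rw [← hsum]
    exact Finset.single_le_sum (fun j _ => hs0 j) (mem_univ i)
  have hterm := fun i => term_ineq (T := T) hr.le he (hs0 i) (hs1 i)
  have hsum2 := Finset.sum_le_sum fun i (_ : i ∈ univ) => hterm i
  rw [Finset.sum_sub_distrib, Finset.sum_sub_distrib, ← Finset.mul_sum, hsum, mul_one] at hsum2
  have h5 : ∑ i, e * (hA.eigenvalues i / q) * (if T < r + e then (1 : ℝ) else 0) =
      e * (if T < r + e then 1 else 0) := by
    rw [← Finset.sum_mul, ← Finset.mul_sum, hsum, mul_one]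
  rw [h5] at hsum2
  have h6 : ∑ i, max ((r + e) * (hA.eigenvalues i / q) - T) 0 =
      ∑ i, max (c * hA.eigenvalues i - T) 0 := by
    refine Finset.sum_congr rfl fun i _ => ?_
    rw [hc]
    congr 2
    field_simp
  rw [h6] at hsum2
  linarith


/-- **One side of the key inequality.**  Data: `a`, `D ≥ 0`, `A = a a†` of trace `q > 0`, `D` of trace
`τ`, `D ≥ ((τ - e)/q) A`, `0 ≤ e < T`; `W ≥ 0` antitone on `(0, ∞)`, integrable near `0`, `W → 0` at
`∞`; `w` dominates `W` at eigenvalues of `X(t) = a† (D + t)⁻¹ a`: if `q / (τ + r) < x` then `W r ≤ w x`.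
Then for each `ε > 0` there is an (antitone, hence integrable) `S` below `Σ_i w (eig_i X(t))`, `t > 0`,
with `∫₀ᵀ S ≥ Σ_i s_i ∫₀^{T/s_i} W - e W(T-e) - ε`, where `s_i` are the eigenvalues of `A / q`. -/
theorem side_lower (hD : D.PosSemidef) {q τ e T ε : ℝ} (hq : 0 < q)
    (htrA : (a * aᴴ).trace.re = q) (htrD : D.trace.re = τ)
    (hDA : (D - (((τ - e) / q : ℝ) : ℂ) • (a * aᴴ)).PosSemidef) (he : 0 ≤ e) (heT : e < T)
    (hε : 0 < ε) (hA : (a * aᴴ).IsHermitian)
    {W w : ℝ → ℝ} (hW0 : ∀ r, 0 < r → 0 ≤ W r) (hanti : AntitoneOn W (Set.Ioi 0))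
    (hint : ∀ R, 0 < R → IntervalIntegrable W MeasureTheory.volume 0 R)
    (hlim : Filter.Tendsto W Filter.atTop (nhds 0))
    (hX : ∀ t, (resolvX a D t).IsHermitian)
    (hw0 : ∀ t, 0 < t → ∀ i, 0 ≤ w ((hX t).eigenvalues i))
    (hw : ∀ t, 0 < t → ∀ i r, 0 < r → q / (τ + r) < (hX t).eigenvalues i →
      W r ≤ w ((hX t).eigenvalues i)) :
    ∃ S : ℝ → ℝ, Antitone S ∧ (∀ t, 0 < t → S t ≤ ∑ i, w ((hX t).eigenvalues i)) ∧
      ∑ i, (hA.eigenvalues i / q) * (∫ r in (0 : ℝ)..(T / (hA.eigenvalues i / q)), W r)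
        - e * W (T - e) - ε ≤ ∫ t in (0 : ℝ)..T, S t := by
  classical
  have hT : 0 < T := lt_of_le_of_lt he heT
  have hτ0 : 0 ≤ τ := by
    rw [← htrD]
    have := hD.trace_nonneg
    exact (Complex.le_def.1 this).1
  have hAp : (a * aᴴ).PosSemidef := posSemidef_self_mul_conjTranspose a
  -- the eigenvalues of `A / q`
  set s : d → ℝ := fun i => hA.eigenvalues i / q with hs
  have hs0 : ∀ i, 0 ≤ s i := fun i =>
    div_nonneg (by simpa using hAp.eigenvalues_nonneg i) hq.le
  -- choice of the mesh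
  have hlim1 : Filter.Tendsto (fun h => ∑ i, s i * ∫ ρ in (0 : ℝ)..(T / s i), W (ρ + h))
      (nhdsWithin 0 (Set.Ioi 0)) (nhds (∑ i, s i * ∫ r in (0 : ℝ)..(T / s i), W r)) := by
    refine tendsto_finsetSum _ fun i _ => ?_
    rcases (hs0 i).eq_or_lt with h0 | h0
    · simp [← h0]
    · exact (tendsto_integral_shift hint (div_pos hT h0)).const_mul _
  have hε2 : (∑ i, s i * ∫ r in (0 : ℝ)..(T / s i), W r) - ε / 2 <
      ∑ i, s i * ∫ r in (0 : ℝ)..(T / s i), W r := by linarith
  have hev := (tendsto_order.1 hlim1).1 _ hε2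
  obtain ⟨h, hh1, hh⟩ := (hev.and self_mem_nhdsWithin).exists
  have hh : 0 < h := hh
  -- choice of the number of steps
  have hgrid : Filter.Tendsto (fun n : ℕ => W (((n : ℝ) + 1) * h)) Filter.atTop (nhds 0) := by
    refine hlim.comp ?_
    refine Filter.Tendsto.atTop_mul_const hh ?_
    exact Filter.tendsto_atTop_add_const_right _ _ tendsto_natCast_atTop_atTop
  have hgrid2 : Filter.Tendsto (fun n : ℕ => (Fintype.card d : ℝ) * (T * W (((n : ℝ) + 1) * h)))
      Filter.atTop (nhds ((Fintype.card d : ℝ) * (T * 0))) := (hgrid.const_mul _).const_mul _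
  rw [mul_zero, mul_zero] at hgrid2
  have hev2 := (tendsto_order.1 hgrid2).2 (ε / 2) (by linarith)
  obtain ⟨n, hn⟩ := hev2.exists
  -- the grid
  let r : ℕ → ℝ := fun k => ((k : ℝ) + 1) * h
  have hr : ∀ k, 0 < r k := fun k => by positivity
  have hYh : ∀ k, (((q / (τ + r k) : ℝ) : ℂ)⁻¹ • (a * aᴴ) - D).IsHermitian := fun k =>
    isHermitian_Y a hD.isHermitian _
  let c : ℕ → ℝ := gridC W h
  have hc : ∀ k, 0 ≤ c k := gridC_nonneg hanti hh
  let S : ℝ → ℝ := fun t => ∑ k ∈ range n, c k * cnt (hYh k).eigenvalues t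
  refine ⟨S, ?_, ?_, ?_⟩
  · intro x y hxy
    exact Finset.sum_le_sum fun k _ =>
      mul_le_mul_of_nonneg_left (antitone_cnt _ hxy) (hc k)
  · intro t ht
    have h1 : ∀ k, cnt (hYh k).eigenvalues t ≤
        ∑ i, if q / (τ + r k) < (hX t).eigenvalues i then (1 : ℝ) else 0 := by
      intro k
      have hξ : 0 < q / (τ + r k) := by
        have := hr k
        positivity
      have := count_X_ge a hD ht hξ (hYh k) (hX t)
      rw [cnt]
      have h2 : ((univ.filter (fun j => t < (hYh k).eigenvalues j)).card : ℝ) ≤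
          ((univ.filter (fun i => q / (τ + r k) < (hX t).eigenvalues i)).card : ℝ) := by
        exact_mod_cast this
      refine h2.trans (le_of_eq ?_)
      rw [Finset.card_filter]
      push_cast
      rfl
    calc S t ≤ ∑ k ∈ range n, c k *
          ∑ i, if q / (τ + r k) < (hX t).eigenvalues i then (1 : ℝ) else 0 :=
          Finset.sum_le_sum fun k _ => mul_le_mul_of_nonneg_left (h1 k) (hc k)
      _ = ∑ i, ∑ k ∈ range n, if q / (τ + r k) < (hX t).eigenvalues i then c k else 0 := by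
          simp_rw [Finset.mul_sum]
          rw [Finset.sum_comm]
          refine Finset.sum_congr rfl fun i _ => Finset.sum_congr rfl fun k _ => ?_
          by_cases hk : q / (τ + r k) < (hX t).eigenvalues i <;> simp [hk]
      _ ≤ ∑ i, w ((hX t).eigenvalues i) := by
          refine Finset.sum_le_sum fun i _ => ?_
          refine tele_le hW0 hh (fun k => q / (τ + r k) < (hX t).eigenvalues i) ?_
            (fun k hk => hw t ht i (r k) (hr k) hk) (hw0 t ht i) n
          intro k hk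
          refine lt_of_le_of_lt ?_ hk
          have h3 : r k ≤ r (k + 1) := by
            simp only [r]
            push_cast
            nlinarith
          exact div_le_div_of_nonneg_left hq.le (by have := hr k; positivity) (by linarith)
  · -- the integral of `S`
    have hI : ∫ t in (0 : ℝ)..T, S t =
        ∑ k ∈ range n, c k * ∑ j, min (max ((hYh k).eigenvalues j) 0) T := by
      simp only [S]
      rw [intervalIntegral.integral_finsetSum]
      · refine Finset.sum_congr rfl fun k _ => ?_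
        rw [intervalIntegral.integral_const_mul, integral_cnt _ hT.le]
      · intro k _
        exact (antitone_cnt _).intervalIntegrable.const_mul _
    rw [hI]
    have hm : ∀ k, c k * (∑ i, min (r k * s i) T - e * (if T < r k + e then 1 else 0)) ≤
        c k * ∑ j, min (max ((hYh k).eigenvalues j) 0) T := fun k =>
      mul_le_mul_of_nonneg_left (m_ge a hq htrA htrD hDA he (hr k) hA (hYh k)) (hc k)
    refine le_trans ?_ (Finset.sum_le_sum fun k _ => hm k)
    have hsplit : ∑ k ∈ range n, c k * (∑ i, min (r k * s i) T -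
          e * (if T < r k + e then 1 else 0)) =
        ∑ i, ∑ k ∈ range n, c k * min (r k * s i) T -
          e * ∑ k ∈ range n, (if T < r k + e then c k else 0) := by
      rw [Finset.mul_sum, ← Finset.sum_comm, ← Finset.sum_sub_distrib]
      refine Finset.sum_congr rfl fun k _ => ?_
      rw [mul_sub, Finset.mul_sum]
      by_cases hk : T < r k + e <;> simp [hk] <;> ring
    rw [hsplit]
    have hWe : 0 ≤ W (T - e) := hW0 _ (by linarith)
    have hte : ∑ k ∈ range n, (if T < r k + e then c k else 0) ≤ W (T - e) := by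
      refine tele_le hW0 hh (fun k => T < r k + e) ?_ ?_ hWe n
      · intro k hk
        have h3 : r k ≤ r (k + 1) := by
          simp only [r]
          push_cast
          nlinarith
        show T < r (k + 1) + e
        linarith
      · intro k hk
        have hk' : T < r k + e := hk
        exact hanti (Set.mem_Ioi.2 (by linarith)) (Set.mem_Ioi.2 (hr k)) (by linarith)
    have hmin : ∀ i, (s i * ∫ ρ in (0 : ℝ)..(T / s i), W (ρ + h)) - T * W (((n : ℝ) + 1) * h) ≤
        ∑ k ∈ range n, c k * min (r k * s i) T := fun i =>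
      sum_c_min_smul_ge hanti hh (hs0 i) hT.le hW0 n
    have hsum := Finset.sum_le_sum fun i (_ : i ∈ univ) => hmin i
    rw [Finset.sum_sub_distrib, Finset.sum_const, Finset.card_univ, nsmul_eq_mul] at hsum
    have he2 := mul_le_mul_of_nonneg_left hte he
    have hn' : (Fintype.card d : ℝ) * (T * W (((n : ℝ) + 1) * h)) < ε / 2 := hn
    have hgoal : ∑ i, (hA.eigenvalues i / q) * (∫ r in (0 : ℝ)..(T / (hA.eigenvalues i / q)), W r) =
        ∑ i, s i * ∫ r in (0 : ℝ)..(T / s i), W r := rfl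
    rw [hgoal]
    linarith

end main

end Crest.Agent.Lib.GAD
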