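/-
Row 341 (S0534, S0535): Step 1 of the proof of the key inequality: Schur + Sylvester.
`M` = output of the GAD on the first factor, `A, C` diagonal blocks of `ρ = G G*`, `a, b` rows of `G`.
-/
import Crest.Agent.Lib.GAD.LogDet
import Crest.Agent.Lib.GAD.Count
import Crest.Agent.Lib.GAD.Step
import Crest.Prelude.Def_AmpDamp

set_option autoImplicit false
set_option linter.unusedSectionVars false

namespace Crest.Agent.Lib.GAD

open Matrix Real Finset
open scoped ComplexOrder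
open Crest.Quantum Crest.MathPhysics.AmpDamp

variable {d r : Type*} [Fintype d] [DecidableEq d] [Fintype r] [DecidableEq r]

/-! ### Schur complements -/

/-- `det (S - c a a*) = det S · det (1 - c a* S⁻¹ a)`. -/
lemma det_sub_smul_mul {S : Matrix d d ℂ} (hS : IsUnit S.det) (c : ℂ) (a : Matrix d r ℂ) :
    det (S - c • (a * aᴴ)) = det S * det (1 - c • (aᴴ * S⁻¹ * a)) := by
  have h1 : S - c • (a * aᴴ) = S * (1 - (c • (S⁻¹ * a)) * aᴴ) := by
    rw [Matrix.mul_sub, Matrix.mul_one, Matrix.smul_mul, Matrix.mul_smul, ← Matrix.mul_assoc,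
      ← Matrix.mul_assoc, Matrix.mul_nonsing_inv _ hS, Matrix.one_mul]
  rw [h1, det_mul, det_one_sub_mul_comm]
  congr 3
  rw [Matrix.mul_smul, Matrix.mul_assoc]

/-- Schur + Sylvester for the block matrix. -/
lemma det_fromBlocks_schur {S₁ S₂ : Matrix d d ℂ} (h1 : IsUnit S₁.det) (h2 : IsUnit S₂.det) (k : ℂ)
    (a b : Matrix d r ℂ) :
    det (fromBlocks S₁ (k • (a * bᴴ)) (k • (b * aᴴ)) S₂) =
      det S₁ * det S₂ * det (1 - (k * k) • ((aᴴ * S₁⁻¹ * a) * (bᴴ * S₂⁻¹ * b))) := by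
  have := Matrix.invertibleOfIsUnitDet S₁ h1
  rw [det_fromBlocks₁₁, invOf_eq_nonsing_inv]
  set X := aᴴ * S₁⁻¹ * a with hX
  set Y := bᴴ * S₂⁻¹ * b with hY
  have e1 : S₂ - k • (b * aᴴ) * S₁⁻¹ * (k • (a * bᴴ)) = S₂ * (1 - ((k * k) • (S₂⁻¹ * b * X)) * bᴴ) := by
    have e0 : S₂ * (((k * k) • (S₂⁻¹ * b * X)) * bᴴ) = (k * k) • (b * X * bᴴ) := by
      calc S₂ * (((k * k) • (S₂⁻¹ * b * X)) * bᴴ)
          = (k * k) • ((S₂ * S₂⁻¹) * b * X * bᴴ) := by
            simp only [Matrix.smul_mul, Matrix.mul_smul, Matrix.mul_assoc]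
        _ = _ := by rw [Matrix.mul_nonsing_inv _ h2, Matrix.one_mul]
    rw [Matrix.mul_sub, Matrix.mul_one, e0, hX]
    congr 1
    simp only [Matrix.smul_mul, Matrix.mul_smul, Matrix.mul_assoc, smul_smul]
  rw [e1, det_mul, det_one_sub_mul_comm, mul_assoc]
  congr 2
  have e2 : bᴴ * ((k * k) • (S₂⁻¹ * b * X)) = (k * k) • (Y * X) := by
    rw [hY, Matrix.mul_smul]
    simp only [Matrix.mul_assoc]
  rw [e2]
  have e3 : (k * k) • (Y * X) = ((k * k) • Y) * X := by rw [Matrix.smul_mul]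
  have e4 : (k * k) • (X * Y) = X * ((k * k) • Y) := by rw [Matrix.mul_smul]
  rw [e3, e4, det_one_sub_mul_comm]

/-! ### Resolvent bound -/

/-- From a PD function of `X` to the eigenvalues. -/
lemma pos_of_hfun_posDef {X : Matrix r r ℂ} (hX : X.IsHermitian) {g : ℝ → ℝ}
    (h : (hfun hX g).PosDef) (i : r) : 0 < g (hX.eigenvalues i) := by
  have h1 := h.conjTranspose_mul_mul_same (B := (hX.eigenvectorUnitary : Matrix r r ℂ)) (by
    have hu : IsUnit (hX.eigenvectorUnitary : Matrix r r ℂ) :=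
      ⟨⟨_, _, unitary_mul_star hX, unitary_star_mul hX⟩, rfl⟩
    exact Matrix.mulVec_injective_of_isUnit hu)
  have h2 : (hX.eigenvectorUnitary : Matrix r r ℂ)ᴴ * hfun hX g * (hX.eigenvectorUnitary : Matrix r r ℂ) =
      diagonal (fun i => (g (hX.eigenvalues i) : ℂ)) := by
    unfold hfun
    rw [← star_eq_conjTranspose]
    calc star (hX.eigenvectorUnitary : Matrix r r ℂ) *
          ((hX.eigenvectorUnitary : Matrix r r ℂ) * diagonal (fun i => (g (hX.eigenvalues i) : ℂ)) *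
            star (hX.eigenvectorUnitary : Matrix r r ℂ)) * (hX.eigenvectorUnitary : Matrix r r ℂ)
        = (star (hX.eigenvectorUnitary : Matrix r r ℂ) * (hX.eigenvectorUnitary : Matrix r r ℂ)) *
            diagonal (fun i => (g (hX.eigenvalues i) : ℂ)) *
            (star (hX.eigenvectorUnitary : Matrix r r ℂ) * (hX.eigenvectorUnitary : Matrix r r ℂ)) := by
          simp only [Matrix.mul_assoc]
      _ = _ := by rw [unitary_star_mul, Matrix.one_mul, Matrix.mul_one]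
  rw [h2, posDef_diagonal_iff] at h1
  exact_mod_cast h1 i

/-- `1 - c X` is positive definite if `S - c a a*` is. (`X = a* S⁻¹ a`.) -/
lemma one_sub_resolv_posDef {S : Matrix d d ℂ} (hS : S.PosDef) {c : ℝ} (hc : 0 ≤ c) (a : Matrix d r ℂ)
    (hP : (S - (c : ℂ) • (a * aᴴ)).PosDef) :
    (1 - (c : ℂ) • (aᴴ * S⁻¹ * a)).PosDef := by
  set P := S - (c : ℂ) • (a * aᴴ) with hPdef
  have hSu : IsUnit S.det := by
    have := hS.det_pos
    exact (isUnit_iff_ne_zero).2 this.ne'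
  have hPu : IsUnit P.det := by
    have := hP.det_pos
    exact (isUnit_iff_ne_zero).2 this.ne'
  set W : Matrix r r ℂ := 1 + (c : ℂ) • (aᴴ * P⁻¹ * a) with hW
  have hWpd : W.PosDef := by
    have h1 : (aᴴ * P⁻¹ * a).PosSemidef := by
      have := hP.inv.posSemidef.conjTranspose_mul_mul_same a
      exact this
    have hc' : (0 : ℂ) ≤ (c : ℂ) := by exact_mod_cast hc
    exact PosDef.one.add_posSemidef (h1.smul hc')
  have hmul : (1 - (c : ℂ) • (aᴴ * S⁻¹ * a)) * W = 1 := by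
    have e1 : (c : ℂ) • (a * aᴴ) = S - P := by rw [hPdef]; abel
    rw [hW, Matrix.mul_add, Matrix.mul_one, Matrix.sub_mul, Matrix.one_mul, Matrix.smul_mul]
    have e2 : (aᴴ * S⁻¹ * a) * ((c : ℂ) • (aᴴ * P⁻¹ * a)) = aᴴ * P⁻¹ * a - aᴴ * S⁻¹ * a := by
      calc (aᴴ * S⁻¹ * a) * ((c : ℂ) • (aᴴ * P⁻¹ * a))
          = aᴴ * S⁻¹ * ((c : ℂ) • (a * aᴴ)) * P⁻¹ * a := by
            simp only [Matrix.mul_smul, Matrix.smul_mul, Matrix.mul_assoc]
        _ = aᴴ * S⁻¹ * (S - P) * P⁻¹ * a := by rw [e1]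
        _ = aᴴ * (S⁻¹ * S - S⁻¹ * P) * P⁻¹ * a := by
            rw [Matrix.mul_assoc aᴴ, Matrix.mul_sub]
        _ = aᴴ * (1 - S⁻¹ * P) * P⁻¹ * a := by rw [Matrix.nonsing_inv_mul _ hSu]
        _ = aᴴ * (P⁻¹ - S⁻¹) * a := by
            rw [Matrix.mul_assoc aᴴ, Matrix.sub_mul, Matrix.one_mul, Matrix.mul_assoc S⁻¹,
              Matrix.mul_nonsing_inv _ hPu, Matrix.mul_one]
        _ = _ := by rw [Matrix.mul_sub, Matrix.sub_mul]
    rw [e2, smul_sub]
    abel
  have hinv : 1 - (c : ℂ) • (aᴴ * S⁻¹ * a) = W⁻¹ := (Matrix.inv_eq_left_inv hmul).symm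
  rw [hinv]
  exact hWpd.inv

/-! ### Blocks -/

section blocks

/-- A matrix on `Bool × d` and its four blocks. -/
lemma det_eq_det_blocks (M : Matrix (Bool × d) (Bool × d) ℂ) :
    det M = det (fromBlocks (block M false false) (block M false true)
      (block M true false) (block M true true)) := by
  have h : fromBlocks (block M false false) (block M false true) (block M true false)
      (block M true true) = M.submatrix (Equiv.boolProdEquivSum d).symm
        (Equiv.boolProdEquivSum d).symm := by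
    ext (i | i) (j | j) <;> simp [block, Equiv.boolProdEquivSum]
  rw [h, det_submatrix_equiv_self]

lemma block_add (M N : Matrix (Bool × d) (Bool × d) ℂ) (s s' : Bool) :
    block (M + N) s s' = block M s s' + block N s s' := by
  ext i j; simp [block]

lemma block_smul_one_same (c : ℂ) (s : Bool) :
    block (c • (1 : Matrix (Bool × d) (Bool × d) ℂ)) s s = c • 1 := by
  ext i j
  by_cases h : i = j
  · simp [block, h]
  · simp [block, h]

lemma block_smul_one_ne (c : ℂ) {s s' : Bool} (h : s ≠ s') :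
    block (c • (1 : Matrix (Bool × d) (Bool × d) ℂ)) s s' = 0 := by
  ext i j
  simp [block, Matrix.one_apply, h]

variable (γ ν : ℝ) (ρ : Matrix (Bool × d) (Bool × d) ℂ)

local notation "QT" => qubitTensor (gadMap γ ν) (id : Matrix d d ℂ → Matrix d d ℂ) ρ

lemma block_qt_ff : block QT false false =
    ((1 - γ * ν : ℝ) : ℂ) • block ρ false false + ((γ * (1 - ν) : ℝ) : ℂ) • block ρ true true := by
  ext i j
  simp [block, qubitTensor, qubitCoeff, gadMap, Matrix.single_apply]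
  ring

lemma block_qt_tt : block QT true true =
    ((γ * ν : ℝ) : ℂ) • block ρ false false + ((1 - γ + γ * ν : ℝ) : ℂ) • block ρ true true := by
  ext i j
  simp [block, qubitTensor, qubitCoeff, gadMap, Matrix.single_apply]
  ring

lemma block_qt_ft : block QT false true =
    ((Real.sqrt (1 - γ) : ℝ) : ℂ) • block ρ false true := by
  ext i j
  simp [block, qubitTensor, qubitCoeff, gadMap, Matrix.single_apply]

lemma block_qt_tf : block QT true false =
    ((Real.sqrt (1 - γ) : ℝ) : ℂ) • block ρ true false := by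
  ext i j
  simp [block, qubitTensor, qubitCoeff, gadMap, Matrix.single_apply]

end blocks

/-- The rows of a factor of a PSD matrix on `Bool × d`. -/
theorem exists_rows {ρ : Matrix (Bool × d) (Bool × d) ℂ} (hρ : ρ.PosSemidef) :
    ∃ a b : Matrix d (Bool × d) ℂ, block ρ false false = a * aᴴ ∧ block ρ true true = b * bᴴ ∧
      block ρ false true = a * bᴴ ∧ block ρ true false = b * aᴴ := by
  obtain ⟨B, hB⟩ := exists_sqrt hρ
  refine ⟨Matrix.of fun i r => Bᴴ (false, i) r, Matrix.of fun i r => Bᴴ (true, i) r, ?_, ?_, ?_, ?_⟩ <;>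
  · ext i j
    simp [block, hB, Matrix.mul_apply]

/-- All the data of `Step 1`. -/
structure GadBlockData (γ ν : ℝ) (ρ : Matrix (Bool × d) (Bool × d) ℂ)
    (a b : Matrix d (Bool × d) ℂ) : Prop where
  hγ : γ ∈ Set.Icc (0 : ℝ) 1
  hν : ν ∈ Set.Icc (0 : ℝ) 1
  hρ : ρ.PosSemidef
  hA : block ρ false false = a * aᴴ
  hC : block ρ true true = b * bᴴ
  hAC : block ρ false true = a * bᴴ
  hCA : block ρ true false = b * aᴴ

theorem exists_gadBlockData {γ ν : ℝ} (hγ : γ ∈ Set.Icc (0 : ℝ) 1) (hν : ν ∈ Set.Icc (0 : ℝ) 1)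
    {ρ : Matrix (Bool × d) (Bool × d) ℂ} (hρ : ρ.PosSemidef) :
    ∃ a b : Matrix d (Bool × d) ℂ, GadBlockData γ ν ρ a b := by
  obtain ⟨a, b, h1, h2, h3, h4⟩ := exists_rows hρ
  exact ⟨a, b, ⟨hγ, hν, hρ, h1, h2, h3, h4⟩⟩

/-- `D1 = α A + β C`. -/
noncomputable def gadD1 (γ ν : ℝ) (ρ : Matrix (Bool × d) (Bool × d) ℂ) : Matrix d d ℂ :=
  ((1 - γ * ν : ℝ) : ℂ) • block ρ false false + ((γ * (1 - ν) : ℝ) : ℂ) • block ρ true true

/-- `D2 = α' A + β' C`. -/
noncomputable def gadD2 (γ ν : ℝ) (ρ : Matrix (Bool × d) (Bool × d) ℂ) : Matrix d d ℂ :=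
  ((γ * ν : ℝ) : ℂ) • block ρ false false + ((1 - γ + γ * ν : ℝ) : ℂ) • block ρ true true

namespace GadBlockData

variable {γ ν : ℝ} {ρ : Matrix (Bool × d) (Bool × d) ℂ} {a b : Matrix d (Bool × d) ℂ}
  (H : GadBlockData γ ν ρ a b) {t : ℝ} (ht : 0 < t)

include H

lemma α_nonneg : 0 ≤ 1 - γ * ν := by
  have := H.hγ.1; have := H.hγ.2; have := H.hν.1; have := H.hν.2; nlinarith
lemma β_nonneg : 0 ≤ γ * (1 - ν) :=
  mul_nonneg H.hγ.1 (by linarith [H.hν.2])
lemma α'_nonneg : 0 ≤ γ * ν := mul_nonneg H.hγ.1 H.hν.1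
lemma β'_nonneg : 0 ≤ 1 - γ + γ * ν := by
  have := H.hγ.2
  have := mul_nonneg H.hγ.1 H.hν.1
  linarith

lemma A_psd : (a * aᴴ).PosSemidef := Matrix.posSemidef_self_mul_conjTranspose a
lemma C_psd : (b * bᴴ).PosSemidef := Matrix.posSemidef_self_mul_conjTranspose b

lemma smul_psd {c : ℝ} (hc : 0 ≤ c) {T : Matrix d d ℂ} (hT : T.PosSemidef) :
    ((c : ℂ) • T).PosSemidef := hT.smul (by exact_mod_cast hc)

lemma D1_psd : (gadD1 γ ν ρ).PosSemidef := by
  unfold gadD1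
  rw [H.hA, H.hC]
  exact (smul_psd H H.α_nonneg H.A_psd).add (smul_psd H H.β_nonneg H.C_psd)

lemma D2_psd : (gadD2 γ ν ρ).PosSemidef := by
  unfold gadD2
  rw [H.hA, H.hC]
  exact (smul_psd H H.α'_nonneg H.A_psd).add (smul_psd H H.β'_nonneg H.C_psd)

include ht

lemma add_pd {T : Matrix d d ℂ} (hT : T.PosSemidef) : (T + (t : ℂ) • (1 : Matrix d d ℂ)).PosDef :=
  Matrix.PosDef.posSemidef_add hT (Matrix.PosDef.one.smul (by exact_mod_cast ht))

lemma isUnit_det {T : Matrix d d ℂ} (hT : T.PosSemidef) :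
    IsUnit (T + (t : ℂ) • (1 : Matrix d d ℂ)).det :=
  isUnit_iff_ne_zero.2 (add_pd H ht hT).det_pos.ne'

/-- `det (M + t) = det (D1 + t) det (D2 + t) det (1 - (1-γ) X Y)`. -/
theorem det_output :
    det (qubitTensor (gadMap γ ν) (id : Matrix d d ℂ → Matrix d d ℂ) ρ + (t : ℂ) • 1) =
      det (gadD1 γ ν ρ + (t : ℂ) • 1) * det (gadD2 γ ν ρ + (t : ℂ) • 1) *
        det (1 - ((1 - γ : ℝ) : ℂ) • (resolvX a (gadD1 γ ν ρ) t * resolvX b (gadD2 γ ν ρ) t)) := by
  rw [det_eq_det_blocks]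
  simp only [block_add, block_qt_ff, block_qt_tt, block_qt_ft, block_qt_tf]
  rw [block_smul_one_same, block_smul_one_same, block_smul_one_ne _ (by decide : false ≠ true),
    block_smul_one_ne _ (by decide : true ≠ false), add_zero, add_zero, H.hAC, H.hCA]
  have h := det_fromBlocks_schur (isUnit_det H ht H.D1_psd) (isUnit_det H ht H.D2_psd)
    ((Real.sqrt (1 - γ) : ℝ) : ℂ) a b
  have hk : ((Real.sqrt (1 - γ) : ℝ) : ℂ) * ((Real.sqrt (1 - γ) : ℝ) : ℂ) = ((1 - γ : ℝ) : ℂ) := by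
    rw [← Complex.ofReal_mul, Real.mul_self_sqrt (by linarith [H.hγ.2])]
  rw [hk] at h
  exact h

/-- `det (β C + t) = det (D1 + t) det (1 - α X)`. -/
theorem det_betaC :
    det (((γ * (1 - ν) : ℝ) : ℂ) • block ρ true true + (t : ℂ) • 1) =
      det (gadD1 γ ν ρ + (t : ℂ) • 1) * det (1 - ((1 - γ * ν : ℝ) : ℂ) • resolvX a (gadD1 γ ν ρ) t) := by
  have h := det_sub_smul_mul (isUnit_det H ht H.D1_psd) ((1 - γ * ν : ℝ) : ℂ) a
  have e : gadD1 γ ν ρ + (t : ℂ) • 1 - ((1 - γ * ν : ℝ) : ℂ) • (a * aᴴ) =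
      ((γ * (1 - ν) : ℝ) : ℂ) • block ρ true true + (t : ℂ) • 1 := by
    unfold gadD1; rw [H.hA]; abel
  rw [e] at h
  exact h

/-- `det (α' A + t) = det (D2 + t) det (1 - β' Y)`. -/
theorem det_alpha'A :
    det (((γ * ν : ℝ) : ℂ) • block ρ false false + (t : ℂ) • 1) =
      det (gadD2 γ ν ρ + (t : ℂ) • 1) * det (1 - ((1 - γ + γ * ν : ℝ) : ℂ) • resolvX b (gadD2 γ ν ρ) t) := by
  have h := det_sub_smul_mul (isUnit_det H ht H.D2_psd) ((1 - γ + γ * ν : ℝ) : ℂ) b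
  have e : gadD2 γ ν ρ + (t : ℂ) • 1 - ((1 - γ + γ * ν : ℝ) : ℂ) • (b * bᴴ) =
      ((γ * ν : ℝ) : ℂ) • block ρ false false + (t : ℂ) • 1 := by
    unfold gadD2; rw [H.hC]; abel
  rw [e] at h
  exact h

omit ht in
lemma resolvX_psd {D : Matrix d d ℂ} (hD : D.PosSemidef) (ht : 0 < t) (c : Matrix d (Bool × d) ℂ) :
    (resolvX c D t).PosSemidef := by
  unfold resolvX
  exact (add_pd H ht hD).inv.posSemidef.conjTranspose_mul_mul_same c

theorem X_psd : (resolvX a (gadD1 γ ν ρ) t).PosSemidef := resolvX_psd H H.D1_psd ht a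
theorem Y_psd : (resolvX b (gadD2 γ ν ρ) t).PosSemidef := resolvX_psd H H.D2_psd ht b

/-- `1 - α X` is positive definite. -/
theorem one_sub_X_pd : (1 - ((1 - γ * ν : ℝ) : ℂ) • resolvX a (gadD1 γ ν ρ) t).PosDef := by
  refine one_sub_resolv_posDef (add_pd H ht H.D1_psd) H.α_nonneg a ?_
  have e : gadD1 γ ν ρ + (t : ℂ) • 1 - ((1 - γ * ν : ℝ) : ℂ) • (a * aᴴ) =
      ((γ * (1 - ν) : ℝ) : ℂ) • block ρ true true + (t : ℂ) • 1 := by
    unfold gadD1; rw [H.hA]; abel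
  rw [e, H.hC]
  exact add_pd H ht (smul_psd H H.β_nonneg H.C_psd)

/-- `1 - β' Y` is positive definite. -/
theorem one_sub_Y_pd : (1 - ((1 - γ + γ * ν : ℝ) : ℂ) • resolvX b (gadD2 γ ν ρ) t).PosDef := by
  refine one_sub_resolv_posDef (add_pd H ht H.D2_psd) H.β'_nonneg b ?_
  have e : gadD2 γ ν ρ + (t : ℂ) • 1 - ((1 - γ + γ * ν : ℝ) : ℂ) • (b * bᴴ) =
      ((γ * ν : ℝ) : ℂ) • block ρ false false + (t : ℂ) • 1 := by
    unfold gadD2; rw [H.hC]; abel
  rw [e, H.hA]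
  exact add_pd H ht (smul_psd H H.α'_nonneg H.A_psd)

omit H ht in
lemma eig_lt_of_one_sub_pd {κ : Type*} [Fintype κ] [DecidableEq κ] {X : Matrix κ κ ℂ} (hX : X.IsHermitian) {c : ℝ}
    (h : (1 - (c : ℂ) • X).PosDef) (i : κ) : c * hX.eigenvalues i < 1 := by
  have e : 1 - (c : ℂ) • X = hfun hX (fun x => 1 - c * x) := by
    calc 1 - (c : ℂ) • X = hfun hX (fun _ => 1) - (c : ℂ) • hfun hX (fun x => x) := by
          rw [hfun_one, hfun_id]
      _ = hfun hX (fun _ => 1) - hfun hX (fun x => c * x) := by rw [← hfun_smul]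
      _ = hfun hX (fun x => 1 - c * x) := (hfun_sub hX _ _).symm
  rw [e] at h
  have := pos_of_hfun_posDef hX h i
  simpa using this

/-- `α x_i < 1`. -/
theorem alpha_x_lt (hX : (resolvX a (gadD1 γ ν ρ) t).IsHermitian) (i : Bool × d) :
    (1 - γ * ν) * hX.eigenvalues i < 1 :=
  eig_lt_of_one_sub_pd hX (H.one_sub_X_pd ht) i

/-- `β' y_j < 1`. -/
theorem beta'_y_lt (hY : (resolvX b (gadD2 γ ν ρ) t).IsHermitian) (j : Bool × d) :
    (1 - γ + γ * ν) * hY.eigenvalues j < 1 :=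
  eig_lt_of_one_sub_pd hY (H.one_sub_Y_pd ht) j

/-- The output shifted by `t` is positive definite. -/
theorem output_pd :
    (qubitTensor (gadMap γ ν) (id : Matrix d d ℂ → Matrix d d ℂ) ρ + (t : ℂ) • 1).PosDef :=
  Matrix.PosDef.posSemidef_add (qubitTensor_id_posSemidef H.hγ H.hν H.hρ)
    (Matrix.PosDef.one.smul (by exact_mod_cast ht))

/-- The real log identity. -/
theorem log_identity :
    log (det (qubitTensor (gadMap γ ν) (id : Matrix d d ℂ → Matrix d d ℂ) ρ + (t : ℂ) • 1)).re -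
        log (det (((γ * (1 - ν) : ℝ) : ℂ) • block ρ true true + (t : ℂ) • 1)).re -
        log (det (((γ * ν : ℝ) : ℂ) • block ρ false false + (t : ℂ) • 1)).re =
      log (det (1 - ((1 - γ : ℝ) : ℂ) • (resolvX a (gadD1 γ ν ρ) t * resolvX b (gadD2 γ ν ρ) t))).re -
        log (det (1 - ((1 - γ * ν : ℝ) : ℂ) • resolvX a (gadD1 γ ν ρ) t)).re -
        log (det (1 - ((1 - γ + γ * ν : ℝ) : ℂ) • resolvX b (gadD2 γ ν ρ) t)).re := by
  have h1 := det_posDef_re (add_pd H ht H.D1_psd)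
  have h2 := det_posDef_re (add_pd H ht H.D2_psd)
  have hM := det_posDef_re (H.output_pd ht)
  have hf := det_posDef_re (H.one_sub_X_pd ht)
  have hg := det_posDef_re (H.one_sub_Y_pd ht)
  rw [H.det_output ht, H.det_betaC ht, H.det_alpha'A ht]
  rw [H.det_output ht] at hM
  set r1 := det (gadD1 γ ν ρ + (t : ℂ) • 1) with hr1
  set r2 := det (gadD2 γ ν ρ + (t : ℂ) • 1) with hr2
  set e := det (1 - ((1 - γ : ℝ) : ℂ) • (resolvX a (gadD1 γ ν ρ) t * resolvX b (gadD2 γ ν ρ) t)) with he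
  set f := det (1 - ((1 - γ * ν : ℝ) : ℂ) • resolvX a (gadD1 γ ν ρ) t) with hfdef
  set g := det (1 - ((1 - γ + γ * ν : ℝ) : ℂ) • resolvX b (gadD2 γ ν ρ) t) with hgdef
  have re_mul_of_im {u v : ℂ} (hu : u.im = 0) : (u * v).re = u.re * v.re := by
    simp [Complex.mul_re, hu]
  have im_mul_of_im {u v : ℂ} (hu : u.im = 0) (hv : v.im = 0) : (u * v).im = 0 := by
    simp [Complex.mul_im, hu, hv]
  have h12 := im_mul_of_im h1.2 h2.2
  have e1 : (r1 * r2 * e).re = r1.re * r2.re * e.re := by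
    rw [re_mul_of_im h12, re_mul_of_im h1.2]
  have he_pos : 0 < e.re := by
    have := hM.1
    rw [e1] at this
    exact (pos_iff_pos_of_mul_pos this).1 (mul_pos h1.1 h2.1)
  rw [e1, re_mul_of_im h1.2, re_mul_of_im h2.2, log_mul (mul_pos h1.1 h2.1).ne' he_pos.ne',
    log_mul h1.1.ne' h2.1.ne', log_mul h1.1.ne' hf.1.ne', log_mul h2.1.ne' hg.1.ne']
  ring

end GadBlockData

end Crest.Agent.Lib.GAD
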