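/-
Row 341: the integrated log-determinants: `∫_0^T log det (H + t) dt` in terms of the entropy of `H`,
and the behaviour as `T → ∞` (Step 5, left-hand side, of note 204).
-/
import Crest.Agent.Lib.GAD.Entropy

set_option autoImplicit false
set_option linter.unusedSectionVars false
set_option linter.unusedSimpArgs false

namespace Crest.Agent.Lib.GAD

open Matrix Real Finset Filter Topology MeasureTheory
open scoped ComplexOrder Kronecker
open Crest.Quantum

/-- `∫_0^T log (μ + t) dt`. -/
noncomputable def logI (μ T : ℝ) : ℝ := (μ + T) * log (μ + T) - μ * log μ - T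

theorem intervalIntegrable_log_add (μ a b : ℝ) :
    IntervalIntegrable (fun t => log (μ + t)) volume a b := by
  have h := (intervalIntegral.intervalIntegrable_log' (a := μ + a) (b := μ + b)).comp_add_left μ
  simpa using h

theorem integral_log_add (μ T : ℝ) : ∫ t in (0 : ℝ)..T, log (μ + t) = logI μ T := by
  have h := intervalIntegral.integral_comp_add_left (a := 0) (b := T) (f := log) μ
  rw [h, add_zero, integral_log]
  unfold logI
  ring

/-- Behaviour of one term as `T → ∞`. -/
theorem tendsto_logTail (μ : ℝ) (hμ : 0 ≤ μ) :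
    Tendsto (fun T => (μ + T) * log (μ + T) - T - ((μ + T) * log T - T + μ)) atTop (𝓝 0) := by
  have hup : Tendsto (fun T : ℝ => μ ^ 2 / T) atTop (𝓝 0) := tendsto_const_nhds.div_atTop tendsto_id
  refine squeeze_zero' ?_ ?_ hup
  · filter_upwards [eventually_gt_atTop 0] with T hT
    have h1 : 0 < μ + T := by linarith
    have h2 : log (μ + T) - log T = log (1 + μ / T) := by
      rw [← Real.log_div h1.ne' hT.ne']
      congr 1
      field_simp
      ring
    have h3 : μ / T / (1 + μ / T) ≤ log (1 + μ / T) := by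
      have hu : 0 ≤ μ / T := by positivity
      have := Real.one_sub_inv_le_log_of_pos (show 0 < 1 + μ / T by positivity)
      have e : 1 - (1 + μ / T)⁻¹ = μ / T / (1 + μ / T) := by field_simp; ring
      linarith
    have h4 : (μ + T) * (log (μ + T) - log T) ≥ μ := by
      rw [h2]
      have e2 : μ = (μ + T) * (μ / T / (1 + μ / T)) := by field_simp; ring
      calc μ = (μ + T) * (μ / T / (1 + μ / T)) := e2
        _ ≤ _ := mul_le_mul_of_nonneg_left h3 h1.le
    nlinarith
  · filter_upwards [eventually_gt_atTop 0] with T hT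
    have h1 : 0 < μ + T := by linarith
    have h2 : log (μ + T) - log T = log (1 + μ / T) := by
      rw [← Real.log_div h1.ne' hT.ne']
      congr 1
      field_simp
      ring
    have h3 : log (1 + μ / T) ≤ μ / T := by
      have := Real.log_le_sub_one_of_pos (show 0 < 1 + μ / T by positivity)
      linarith
    have h4 : (μ + T) * (log (μ + T) - log T) ≤ (μ + T) * (μ / T) := by
      rw [h2]
      exact mul_le_mul_of_nonneg_left h3 h1.le
    have e : (μ + T) * (μ / T) = μ + μ ^ 2 / T := by field_simp; ring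
    nlinarith

variable {ι : Type*} [Fintype ι] [DecidableEq ι]

/-- The tail term in `∫_0^T log det (H + t) dt = S(H) + tail`. -/
noncomputable def ldTail {H : Matrix ι ι ℂ} (h : H.IsHermitian) (T : ℝ) : ℝ :=
  ∑ i, ((h.eigenvalues i + T) * log (h.eigenvalues i + T) - T)

/-- `Σ_i log (μ_i + t)`: the log-determinant of `H + t` in eigenvalue form. -/
noncomputable def ld {H : Matrix ι ι ℂ} (h : H.IsHermitian) (t : ℝ) : ℝ :=
  ∑ i, log (h.eigenvalues i + t)

theorem ld_intervalIntegrable {H : Matrix ι ι ℂ} (h : H.IsHermitian) (a b : ℝ) :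
    IntervalIntegrable (ld h) volume a b := by
  unfold ld
  have : (fun t => ∑ i, log (h.eigenvalues i + t)) = ∑ i, fun t => log (h.eigenvalues i + t) := by
    funext t
    simp
  show IntervalIntegrable (fun t => ∑ i, log (h.eigenvalues i + t)) volume a b
  rw [this]
  exact IntervalIntegrable.sum _ fun i _ => intervalIntegrable_log_add _ a b

/-- `∫_0^T log det (H + t) dt = S(H) + tail`. -/
theorem integral_ld {H : Matrix ι ι ℂ} (h : H.IsHermitian) (T : ℝ) :
    ∫ t in (0 : ℝ)..T, ld h t = vnEntropy H + ldTail h T := by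
  unfold ld ldTail
  rw [intervalIntegral.integral_finsetSum (fun i _ => intervalIntegrable_log_add _ 0 T), vnEntropy_eq h,
    ← Finset.sum_add_distrib]
  refine Finset.sum_congr rfl fun i _ => ?_
  rw [integral_log_add]
  unfold logI
  simp only [negMulLog]
  ring

/-- The real trace as a sum of eigenvalues. -/
theorem trace_re_eq_sum {H : Matrix ι ι ℂ} (h : H.IsHermitian) : H.trace.re = ∑ i, h.eigenvalues i := by
  rw [h.trace_eq_sum_eigenvalues, Complex.re_sum]
  simp

/-- Behaviour of the tail as `T → ∞`. -/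
theorem tendsto_ldTail {H : Matrix ι ι ℂ} (h : H.PosSemidef) :
    Tendsto (fun T => ldTail h.1 T - ((H.trace.re + Fintype.card ι * T) * log T - Fintype.card ι * T + H.trace.re))
      atTop (𝓝 0) := by
  have h1 := tendsto_finsetSum (Finset.univ : Finset ι) (fun i _ => tendsto_logTail (h.1.eigenvalues i) (h.eigenvalues_nonneg i))
  simp only [Finset.sum_const_zero] at h1
  refine h1.congr fun T => ?_
  unfold ldTail
  rw [Finset.sum_sub_distrib, trace_re_eq_sum h.1]
  have e : ∑ i : ι, ((h.1.eigenvalues i + T) * log T - T + h.1.eigenvalues i) =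
      ((∑ i, h.1.eigenvalues i) + Fintype.card ι * T) * log T - Fintype.card ι * T + ∑ i, h.1.eigenvalues i := by
    simp only [Finset.sum_add_distrib, Finset.sum_sub_distrib, add_mul, Finset.sum_mul, Finset.sum_const,
      Finset.card_univ, nsmul_eq_mul]
    ring
  rw [e]

/-- The combination of three tails in the main inequality. -/
theorem tendsto_three_tails {ι₁ ι₂ ι₃ : Type*} [Fintype ι₁] [DecidableEq ι₁] [Fintype ι₂] [DecidableEq ι₂]
    [Fintype ι₃] [DecidableEq ι₃] {H₁ : Matrix ι₁ ι₁ ℂ} {H₂ : Matrix ι₂ ι₂ ℂ} {H₃ : Matrix ι₃ ι₃ ℂ}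
    (h₁ : H₁.PosSemidef) (h₂ : H₂.PosSemidef) (h₃ : H₃.PosSemidef)
    (hcard : Fintype.card ι₁ = Fintype.card ι₂ + Fintype.card ι₃) :
    Tendsto (fun T => ldTail h₁.1 T - ldTail h₂.1 T - ldTail h₃.1 T -
      (H₁.trace.re - H₂.trace.re - H₃.trace.re) * (log T + 1)) atTop (𝓝 0) := by
  have h := ((tendsto_ldTail h₁).sub (tendsto_ldTail h₂)).sub (tendsto_ldTail h₃)
  simp only [sub_zero] at h
  refine h.congr fun T => ?_
  rw [hcard]
  push_cast
  ring

end Crest.Agent.Lib.GAD
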