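/-
Row 341 (S0534, S0535), the scalar layer, continued: the integrals of `layerW` and their asymptotics:
`Σ_i s_i ∫₀^{T/s_i} W = (τ - e) (log T + 1) + (τ - e) Σ_i negMulLog s_i - K + o(1)`
(`tendsto_sum_integral_layerW`), and the limit inequality of the two sides (`gad_limit_ineq`).
-/
import Mathlib
import Crest.Agent.Lib.GAD.Scalar

set_option autoImplicit false
set_option linter.unusedSectionVars false

namespace Crest.Agent.Lib.GAD

open Real Set Filter Topology MeasureTheory
open Crest.Agent.GAD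

lemma integral_log_add_left (μ R : ℝ) :
    ∫ r in (0 : ℝ)..R, log (μ + r) = (μ + R) * log (μ + R) - μ * log μ - R := by
  rw [intervalIntegral.integral_comp_add_left (fun x => log x) μ, integral_log, add_zero]
  ring

lemma integral_log_add_right (e R : ℝ) :
    ∫ r in (0 : ℝ)..R, log (r + e) = (R + e) * log (R + e) - e * log e - R := by
  rw [intervalIntegral.integral_comp_add_right (fun x => log x) e, integral_log, zero_add]
  ring

/-- `(μ + R) log (μ + R) - (R + μ) log R → μ`. -/
lemma tendsto_logJ (μ : ℝ) :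
    Tendsto (fun R : ℝ => (μ + R) * log (μ + R) - (R + μ) * log R) atTop (𝓝 μ) := by
  have h1 := Real.tendsto_mul_log_one_add_div_atTop μ
  have h2 : Tendsto (fun R : ℝ => 1 + μ / R) atTop (𝓝 (1 + 0)) :=
    tendsto_const_nhds.add (tendsto_const_nhds.div_atTop tendsto_id)
  rw [add_zero] at h2
  have h3 := h2.log (by norm_num)
  rw [log_one] at h3
  have h4 := h1.add (h3.const_mul μ)
  rw [mul_zero, add_zero] at h4
  refine h4.congr' ?_
  filter_upwards [eventually_gt_atTop (max 0 (-μ))] with R hR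
  have hR0 : 0 < R := lt_of_le_of_lt (le_max_left _ _) hR
  have hR1 : 0 < μ + R := by have := lt_of_le_of_lt (le_max_right _ _) hR; linarith
  have h5 : log (1 + μ / R) = log (μ + R) - log R := by
    rw [← log_div hR1.ne' hR0.ne']
    congr 1
    field_simp
    ring
  rw [h5]
  ring

section

variable {u lp lm e τ : ℝ}

theorem integral_layerW (d : LayerData u lp lm e τ) {R : ℝ} (hR : 0 < R) :
    ∫ r in (0 : ℝ)..R, layerW u lp lm e r =
      u * ((lp + R) * log (lp + R) - lp * log lp - R) +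
        (1 - u) * ((lm + R) * log (lm + R) - lm * log lm - R) -
        ((R + e) * log (R + e) - e * log e - R) := by
  have hlp := d.hlp
  have hlm := d.hlm
  have h1 : IntervalIntegrable (fun r => log (lp + r)) volume 0 R := by
    refine ContinuousOn.intervalIntegrable ?_
    rw [uIcc_of_le hR.le]
    intro r hr
    have hr0 : lp + r ≠ 0 := by have := hr.1; linarith
    exact ((continuousAt_log hr0).comp
      (continuousAt_const.add continuousAt_id)).continuousWithinAt
  have h2 : IntervalIntegrable (fun r => log (lm + r)) volume 0 R := by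
    refine ContinuousOn.intervalIntegrable ?_
    rw [uIcc_of_le hR.le]
    intro r hr
    have hr0 : lm + r ≠ 0 := by have := hr.1; linarith
    exact ((continuousAt_log hr0).comp
      (continuousAt_const.add continuousAt_id)).continuousWithinAt
  have h3 : IntervalIntegrable (fun r => log (r + e)) volume 0 R := by
    have := (intervalIntegral.intervalIntegrable_log' (a := 0 + e) (b := R + e)).comp_add_right e
    simpa using this
  unfold layerW
  rw [intervalIntegral.integral_sub ((h1.const_mul u).add (h2.const_mul (1 - u))) h3,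
    intervalIntegral.integral_add (h1.const_mul u) (h2.const_mul (1 - u)),
    intervalIntegral.integral_const_mul, intervalIntegral.integral_const_mul,
    integral_log_add_left, integral_log_add_left, integral_log_add_right]

/-- The constant of the layer function. -/
noncomputable def layerK (u lp lm e : ℝ) : ℝ :=
  u * lp * log lp + (1 - u) * lm * log lm - e * log e

theorem tendsto_integral_layerW (d : LayerData u lp lm e τ) :
    Tendsto (fun R => (∫ r in (0 : ℝ)..R, layerW u lp lm e r) - (τ - e) * (log R + 1)) atTop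
      (𝓝 (-layerK u lp lm e)) := by
  have hτ := d.hτ
  have h1 := ((tendsto_logJ lp).const_mul u).add ((tendsto_logJ lm).const_mul (1 - u))
  have h2 := h1.sub (tendsto_logJ e)
  have h3 := h2.sub_const ((τ - e) + layerK u lp lm e)
  have hlim : u * lp + (1 - u) * lm - e - ((τ - e) + layerK u lp lm e) = -layerK u lp lm e := by
    rw [hτ]; ring
  rw [hlim] at h3
  refine h3.congr' ?_
  filter_upwards [eventually_gt_atTop 0] with R hR
  rw [integral_layerW d hR, hτ]
  unfold layerK
  have h5 : (e + R) * log (e + R) = (R + e) * log (R + e) := by rw [add_comm e R]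
  rw [h5]
  ring

theorem tendsto_smul_integral_layerW (d : LayerData u lp lm e τ) {s : ℝ} (hs : 0 ≤ s) :
    Tendsto (fun T => s * (∫ r in (0 : ℝ)..(T / s), layerW u lp lm e r) -
        s * (τ - e) * (log T + 1)) atTop
      (𝓝 ((τ - e) * negMulLog s - s * layerK u lp lm e)) := by
  rcases hs.eq_or_lt with rfl | hs
  · simp [negMulLog]
  · have hT : Tendsto (fun T : ℝ => T / s) atTop atTop := tendsto_id.atTop_div_const hs
    have h1 := ((tendsto_integral_layerW d).comp hT).const_mul s
    have h2 := h1.sub_const (s * (τ - e) * log s)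
    have hlim : s * (-layerK u lp lm e) - s * (τ - e) * log s =
        (τ - e) * negMulLog s - s * layerK u lp lm e := by
      unfold negMulLog
      ring
    rw [hlim] at h2
    refine h2.congr' ?_
    filter_upwards [eventually_gt_atTop 0] with T hT0
    simp only [Function.comp]
    rw [log_div hT0.ne' hs.ne']
    ring

/-- The asymptotics of one side. -/
theorem tendsto_sum_integral_layerW (d : LayerData u lp lm e τ) {ι : Type*} [Fintype ι]
    {s : ι → ℝ} (hs0 : ∀ i, 0 ≤ s i) (hs1 : ∑ i, s i = 1) :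
    Tendsto (fun T => ∑ i, s i * (∫ r in (0 : ℝ)..(T / s i), layerW u lp lm e r) -
        (τ - e) * (log T + 1)) atTop
      (𝓝 ((τ - e) * ∑ i, negMulLog (s i) - layerK u lp lm e)) := by
  have h := tendsto_finsetSum Finset.univ fun i (_ : i ∈ Finset.univ) =>
    tendsto_smul_integral_layerW d (hs0 i)
  have hlim : ∑ i, ((τ - e) * negMulLog (s i) - s i * layerK u lp lm e) =
      (τ - e) * ∑ i, negMulLog (s i) - layerK u lp lm e := by
    rw [Finset.sum_sub_distrib, ← Finset.mul_sum, ← Finset.sum_mul, hs1, one_mul]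
  rw [hlim] at h
  refine h.congr fun T => ?_
  rw [Finset.sum_sub_distrib, ← Finset.sum_mul, ← Finset.sum_mul, hs1, one_mul]

end

section gad

variable {γ ν p : ℝ}

/-- `g(p) = - l₊ log l₊ - l₋ log l₋`. -/
lemma gadG_eq_log (γ ν p : ℝ) : gadG γ ν p =
    -(gadLp γ ν p * log (gadLp γ ν p) + gadLm γ ν p * log (gadLm γ ν p)) := by
  have h1 : gadG γ ν p = binEntropy (gadLp γ ν p) := rfl
  have h2 : 1 - gadLp γ ν p = gadLm γ ν p := by
    have := gadLp_add_gadLm (γ := γ) (ν := ν) (p := p)
    linarith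
  rw [h1, binEntropy_eq_negMulLog_add_negMulLog_one_sub, h2]
  unfold negMulLog
  ring

lemma layerK_add (γ ν p : ℝ) :
    layerK (1 - gadTh γ ν p) (gadLp γ ν p) (gadLm γ ν p) (γ * (1 - ν) * p) +
      layerK (gadTh γ ν p) (gadLp γ ν p) (gadLm γ ν p) (γ * ν * (1 - p)) =
    -gadG γ ν p - γ * (1 - ν) * p * log (γ * (1 - ν) * p) - γ * ν * (1 - p) * log (γ * ν * (1 - p)) := by
  rw [gadG_eq_log]
  unfold layerK
  ring

variable (hγ0 : 0 < γ) (hγ1 : γ < 1) (hν0 : 0 ≤ ν) (hν1 : ν ≤ 1) (hp0 : 0 < p) (hp1 : p < 1)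

include hγ0 hγ1 hν0 hν1 hp0 hp1 in
/-- **The limit inequality.**  `F T` stands for `∫₀ᵀ L`; `s`, `s'` are the spectra of `Â`, `Ĉ`. -/
theorem gad_limit_ineq {ι ι' : Type*} [Fintype ι] [Fintype ι'] {s : ι → ℝ} {s' : ι' → ℝ}
    (hs0 : ∀ i, 0 ≤ s i) (hs1 : ∑ i, s i = 1) (hs'0 : ∀ i, 0 ≤ s' i) (hs'1 : ∑ i, s' i = 1)
    {F : ℝ → ℝ} {Λ : ℝ}
    (hF : Tendsto (fun T => F T - ((1 - γ * ν) * (1 - p) + (1 - γ + γ * ν) * p) * (log T + 1)) atTop
      (𝓝 Λ))
    (hle : ∀ᶠ T in atTop,
      (∑ i, s i * ∫ r in (0 : ℝ)..(T / s i),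
          layerW (1 - gadTh γ ν p) (gadLp γ ν p) (gadLm γ ν p) (γ * (1 - ν) * p) r) +
        (∑ i, s' i * ∫ r in (0 : ℝ)..(T / s' i),
          layerW (gadTh γ ν p) (gadLp γ ν p) (gadLm γ ν p) (γ * ν * (1 - p)) r) -
        γ * (1 - ν) * p * layerW (1 - gadTh γ ν p) (gadLp γ ν p) (gadLm γ ν p) (γ * (1 - ν) * p)
          (T - γ * (1 - ν) * p) -
        γ * ν * (1 - p) * layerW (gadTh γ ν p) (gadLp γ ν p) (gadLm γ ν p) (γ * ν * (1 - p))
          (T - γ * ν * (1 - p)) ≤ F T) :
    (1 - γ * ν) * (1 - p) * ∑ i, negMulLog (s i) + (1 - γ + γ * ν) * p * ∑ i, negMulLog (s' i) +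
        gadG γ ν p + γ * (1 - ν) * p * log (γ * (1 - ν) * p) +
        γ * ν * (1 - p) * log (γ * ν * (1 - p)) ≤ Λ := by
  have dA := layerData_A hγ0 hγ1 hν0 hν1 hp0 hp1
  have dC := layerData_C hγ0 hγ1 hν0 hν1 hp0 hp1
  have hA := tendsto_sum_integral_layerW dA hs0 hs1
  have hC := tendsto_sum_integral_layerW dC hs'0 hs'1
  have hwA : 1 - gadP γ ν p - γ * (1 - ν) * p = (1 - γ * ν) * (1 - p) := by
    unfold gadP; ring
  have hwC : gadP γ ν p - γ * ν * (1 - p) = (1 - γ + γ * ν) * p := by
    unfold gadP; ring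
  rw [hwA] at hA
  rw [hwC] at hC
  have hzA : Tendsto (fun T : ℝ => γ * (1 - ν) * p *
      layerW (1 - gadTh γ ν p) (gadLp γ ν p) (gadLm γ ν p) (γ * (1 - ν) * p)
        (T - γ * (1 - ν) * p)) atTop (𝓝 0) := by
    have := ((tendsto_layerW (1 - gadTh γ ν p) (gadLp γ ν p) (gadLm γ ν p)
      (γ * (1 - ν) * p)).comp (tendsto_atTop_add_const_right _ (-(γ * (1 - ν) * p)) tendsto_id)).const_mul
      (γ * (1 - ν) * p)
    rw [mul_zero] at this
    exact this
  have hzC : Tendsto (fun T : ℝ => γ * ν * (1 - p) *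
      layerW (gadTh γ ν p) (gadLp γ ν p) (gadLm γ ν p) (γ * ν * (1 - p))
        (T - γ * ν * (1 - p))) atTop (𝓝 0) := by
    have := ((tendsto_layerW (gadTh γ ν p) (gadLp γ ν p) (gadLm γ ν p)
      (γ * ν * (1 - p))).comp (tendsto_atTop_add_const_right _ (-(γ * ν * (1 - p))) tendsto_id)).const_mul
      (γ * ν * (1 - p))
    rw [mul_zero] at this
    exact this
  have hL := ((hA.add hC).sub hzA).sub hzC
  have hmono := le_of_tendsto_of_tendsto hL hF ?_
  · rw [sub_zero, sub_zero] at hmono
    have hK := layerK_add γ ν p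
    linarith
  · filter_upwards [hle] with T hT
    have : ∀ x y z v w : ℝ, x + y - z - v ≤ w →
        (x - (1 - γ * ν) * (1 - p) * (log T + 1)) + (y - (1 - γ + γ * ν) * p * (log T + 1)) - z - v ≤
          w - ((1 - γ * ν) * (1 - p) + (1 - γ + γ * ν) * p) * (log T + 1) := by
      intro x y z v w h
      nlinarith
    exact this _ _ _ _ _ hT

end gad

end Crest.Agent.Lib.GAD
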